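import Vale.Agent.P370.H600.Mott

/-! **M1, refined error**: if `∑_{a≠b} 2 t_ab²/Δ_ab ≤ k0` then the error is
`2 (n²τ/δ) k0 + k0²/δ + n⁴ κ` (relative accuracy `n²τ/δ` on the second-order energy, instead of
`3 (n²τ)³/δ²`).  With `t_ab² = s w_ab Δ_ab / 2` one has `k0 = 2 s W`, so only
`s ≪ δ²/(Δ_max poly)` is needed. -/

namespace Vale.Agent.P370.H600

open Finset Function

variable {n m : ℕ}

noncomputable section

/-- refined error -/
def mottErr2 (n : ℕ) (δ κ τ k0 : ℝ) : ℝ := 2 * (n ^ 2 * τ / δ) * k0 + k0 ^ 2 / δ + n ^ 4 * κ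

theorem neg_heff_le2 {t : Fin n → Fin n → ℝ} {g : Fin n → Fin n → Fin n → Fin n → ℝ} {δ κ τ : ℝ}
    (H : MottHyp t g δ κ τ) {k0 : ℝ}
    (hk : ∑ a, ∑ b ∈ univ.erase a, 2 * (t a b ^ 2 / Del g a b) ≤ k0) (χ : SSt n) :
    -heff t g χ ≤ k0 * sq χ := by
  have hχ := sqχ_nonneg χ
  have hδ := H.dpos
  refine le_trans ?_ (mul_le_mul_of_nonneg_right hk hχ)
  unfold heff
  rw [neg_neg, Finset.sum_mul]
  apply Finset.sum_le_sum; intro a _
  rw [Finset.sum_mul]
  apply Finset.sum_le_sum; intro b hb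
  have hab := (Finset.ne_of_mem_erase hb).symm
  have h1 := Del_ge H hab
  have h3 := (abs_le.1 (abs_swapForm_le χ a b)).1
  have h4 : 0 ≤ t a b ^ 2 / Del g a b := by
    have : 0 < Del g a b := lt_of_lt_of_le hδ h1
    positivity
  nlinarith

/-- **M1, lower bound, refined**. -/
theorem mott_lower2 (n : ℕ) (t : Fin n → Fin n → ℝ)
    (g : Fin n → Fin n → Fin n → Fin n → ℝ) (δ κ τ lam k0 : ℝ) (H : MottHyp t g δ κ τ)
    (hk0 : ∑ a, ∑ b ∈ univ.erase a, 2 * (t a b ^ 2 / Del g a b) ≤ k0)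
    (hlam : ∀ χ : SSt n, lam * sq χ ≤ heff t g χ)
    (ψ : MSt n n) (hψ : Anti ψ) :
    (E0 g + lam - mottErr2 n δ κ τ k0) * nsq ψ ≤ hform t g ψ := by
  have hδ := H.dpos
  have hτ := H.tpos
  have hκ := H.kpos
  classical
  set χ : SSt n := ψ id with hχ
  set q : MSt n n := fun a s => if Bijective a then 0 else ψ a s with hqdef
  have hq : ∀ a s, Bijective a → q a s = 0 := fun a s h => by simp only [hqdef, if_pos h]
  have hψ2 : ψ = emb χ + q := by
    funext a s
    rw [Pi.add_apply, Pi.add_apply]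
    by_cases ha : Bijective a
    · obtain ⟨σ, rfl⟩ := exists_perm ha
      rw [hq _ _ ha, add_zero]
      exact anti_bij hψ σ s
    · rw [emb_nbij χ ha, zero_add]
      simp only [hqdef, if_neg ha]
  set M : ℝ := n ^ 2 * τ with hM
  have hM0 : 0 ≤ M := by positivity
  set B := T1 (toff t) (emb χ) with hB
  obtain ⟨hn1, hform1⟩ := hform_pq H χ q hq
  rw [← hψ2] at hn1 hform1
  set p2 := nsq (emb χ) with hp2
  set q2 := nsq q with hq2
  have hp20 : 0 ≤ p2 := nsq_nonneg _
  have hq20 : 0 ≤ q2 := nsq_nonneg _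
  set Sq := ∑ a, ∑ s, Acl g a * q a s ^ 2 with hSq
  have hSq2 : δ * q2 ≤ Sq := by
    rw [hSq, hq2, nsq, ip, Finset.mul_sum]
    apply Finset.sum_le_sum; intro a _
    rw [Finset.mul_sum]
    apply Finset.sum_le_sum; intro s _
    by_cases ha : Bijective a
    · rw [hq a s ha]; simp
    · have := Acl_ge H.dpos.le H.Jpos ha
      nlinarith [mul_self_nonneg (q a s)]
  have hθ : M / δ ≤ 1 / 2 := by
    rw [div_le_iff₀ hδ]
    have := H.small_t
    linarith
  set θ := M / δ with hθdef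
  have hθ0 : 0 ≤ θ := by positivity
  have h1θ : 0 < 1 - θ := by linarith
  have hhop : -(θ * Sq) ≤ ip q (T1 (toff t) q) := by
    have h1 := (abs_le.1 (hop_le H q)).1
    have h2 : M * q2 ≤ θ * Sq := by
      calc M * q2 = θ * (δ * q2) := by rw [hθdef]; field_simp
        _ ≤ θ * Sq := mul_le_mul_of_nonneg_left hSq2 hθ0
    linarith
  -- completing the square
  have hsq : -(1 / (1 - θ)) * ip (rvec t g χ) B ≤ (1 - θ) * Sq + 2 * ip q B := by
    rw [← sum_rvec H χ, hSq, ip, Finset.mul_sum, Finset.mul_sum, Finset.mul_sum,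
      ← Finset.sum_add_distrib]
    apply Finset.sum_le_sum; intro a _
    rw [Finset.mul_sum, Finset.mul_sum, Finset.mul_sum, ← Finset.sum_add_distrib]
    apply Finset.sum_le_sum; intro s _
    by_cases ha : Bijective a
    · rw [hq a s ha, Acl_bij g ha]; simp
    · have hA : 0 < Acl g a := lt_of_lt_of_le hδ (Acl_ge H.dpos.le H.Jpos ha)
      have hr : B a s = Acl g a * rvec t g χ a s := by
        rw [rvec_nbij t g χ ha, hB]
        field_simp
      rw [hr]
      have h5 : 0 ≤ Acl g a * ((1 - θ) * q a s + rvec t g χ a s) ^ 2 / (1 - θ) := by positivity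
      have h6 : Acl g a * ((1 - θ) * q a s + rvec t g χ a s) ^ 2 / (1 - θ)
          = (1 - θ) * (Acl g a * q a s ^ 2) + 2 * (q a s * (Acl g a * rvec t g χ a s))
            + (1 / (1 - θ)) * (Acl g a * rvec t g χ a s ^ 2) := by
        field_simp
        ring
      linarith
  have hso := second_order H.tsymm H.Jsymm χ
  rw [← hB] at hso
  have hp2' : p2 = n.factorial * sq χ := nsq_emb χ
  have hf : (0 : ℝ) < n.factorial := by exact_mod_cast n.factorial_pos
  have hk := neg_heff_le2 H hk0 χ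
  have hk00 : 0 ≤ k0 := by
    refine le_trans (Finset.sum_nonneg fun a _ => Finset.sum_nonneg fun b hb => ?_) hk0
    have h1 := Del_ge H (Finset.ne_of_mem_erase hb).symm
    have : 0 < Del g a b := lt_of_lt_of_le hδ h1
    positivity
  have hk2 := hlam χ
  have hlam0 := lam_nonpos hlam
  have hmain : lam * p2 - 2 * θ * k0 * p2 ≤ -(1 / (1 - θ)) * ip (rvec t g χ) B := by
    rw [hso, hp2']
    have h7 : -(1 / (1 - θ)) * -(n.factorial * heff t g χ)
        = n.factorial * (heff t g χ - (θ / (1 - θ)) * (-heff t g χ)) := by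
      field_simp
      ring
    rw [h7]
    have h8 : θ / (1 - θ) ≤ 2 * θ := by
      rw [div_le_iff₀ h1θ]
      nlinarith
    have h9 : 0 ≤ -heff t g χ := by have := heff_le H χ; linarith
    have h10 : (θ / (1 - θ)) * (-heff t g χ) ≤ 2 * θ * (k0 * sq χ) :=
      mul_le_mul h8 hk h9 (by positivity)
    calc lam * (n.factorial * sq χ) - 2 * θ * k0 * (n.factorial * sq χ)
        = n.factorial * (lam * sq χ - 2 * θ * (k0 * sq χ)) := by ring
      _ ≤ n.factorial * (heff t g χ - (θ / (1 - θ)) * (-heff t g χ)) := by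
          apply mul_le_mul_of_nonneg_left _ hf.le
          linarith
  have hrest := (abs_le.1 (rest_le H ψ)).1
  have hE3 : 0 ≤ 2 * θ * k0 := by positivity
  have hfin1 : 2 * θ * k0 * p2 ≤ 2 * θ * k0 * nsq ψ := by
    rw [hn1]
    nlinarith [mul_nonneg hE3 hq20]
  have hE4 : 0 ≤ k0 ^ 2 / δ * nsq ψ := mul_nonneg (by positivity) (nsq_nonneg ψ)
  have hfin2 : lam * nsq ψ ≤ lam * p2 := by
    rw [hn1]; nlinarith [mul_nonneg (neg_nonneg.2 hlam0) hq20]
  have hexp : (E0 g + lam - mottErr2 n δ κ τ k0) * nsq ψ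
      = E0 g * nsq ψ + lam * nsq ψ - 2 * θ * k0 * nsq ψ - k0 ^ 2 / δ * nsq ψ
        - n ^ 4 * κ * nsq ψ := by
    unfold mottErr2
    rw [← hM, ← hθdef]
    ring
  rw [hexp, hform1]
  linarith

/-- **M1, upper bound, refined**. -/
theorem mott_upper2 (n : ℕ) (t : Fin n → Fin n → ℝ)
    (g : Fin n → Fin n → Fin n → Fin n → ℝ) (δ κ τ lam k0 : ℝ) (H : MottHyp t g δ κ τ)
    (hk0 : ∑ a, ∑ b ∈ univ.erase a, 2 * (t a b ^ 2 / Del g a b) ≤ k0)
    (χ : SSt n) (hχ0 : 0 < sq χ) (hχ : heff t g χ ≤ lam * sq χ) :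
    ∃ ψ : MSt n n, Anti ψ ∧ 0 < nsq ψ ∧
      hform t g ψ ≤ (E0 g + lam + mottErr2 n δ κ τ k0) * nsq ψ := by
  have hδ := H.dpos
  have hτ := H.tpos
  have hκ := H.kpos
  set r := rvec t g χ with hr
  have hq : ∀ a s, Bijective a → (-r) a s = 0 := by
    intro a s ha
    rw [Pi.neg_apply, Pi.neg_apply, hr, rvec_bij t g χ ha, neg_zero]
  obtain ⟨hn1, hform1⟩ := hform_pq H χ (-r) hq
  set M : ℝ := n ^ 2 * τ with hM
  have hM0 : 0 ≤ M := by positivity
  set ψ := emb χ + (-r) with hψ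
  set B := T1 (toff t) (emb χ) with hB
  set k := ip r B with hk
  have hnr : nsq (-r) = nsq r := by
    unfold nsq; rw [ip_neg_left, ip_neg_right, neg_neg]
  have hso : k = -(n.factorial * heff t g χ) := second_order H.tsymm H.Jsymm χ
  have hSr : ∑ a, ∑ s, Acl g a * (-r) a s ^ 2 = k := by
    rw [hk, ← sum_rvec H χ]
    apply Finset.sum_congr rfl; intro a _
    apply Finset.sum_congr rfl; intro s _
    rw [Pi.neg_apply, Pi.neg_apply, neg_sq]
  have hrk : δ * nsq r ≤ k := by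
    rw [hk, ← sum_rvec H χ, nsq, ip, Finset.mul_sum]
    apply Finset.sum_le_sum; intro a _
    rw [Finset.mul_sum]
    apply Finset.sum_le_sum; intro s _
    by_cases ha : Bijective a
    · have : r a s = 0 := by have := hq a s ha; simpa using this
      rw [← hr, this]; simp
    · have := Acl_ge H.dpos.le H.Jpos ha
      rw [← hr]
      nlinarith [mul_self_nonneg (r a s)]
  set p2 := nsq (emb χ) with hp2
  have hp2' : p2 = n.factorial * sq χ := nsq_emb χ
  have hf : (0 : ℝ) < n.factorial := by exact_mod_cast n.factorial_pos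
  have hp20 : 0 < p2 := by rw [hp2']; positivity
  have hr20 : 0 ≤ nsq r := nsq_nonneg _
  have hkh := neg_heff_le2 H hk0 χ
  have hk00 : 0 ≤ k0 := by
    refine le_trans (Finset.sum_nonneg fun a _ => Finset.sum_nonneg fun b hb => ?_) hk0
    have h1 := Del_ge H (Finset.ne_of_mem_erase hb).symm
    have : 0 < Del g a b := lt_of_lt_of_le hδ h1
    positivity
  have hkp : k ≤ k0 * p2 := by
    rw [hso, hp2']
    calc -(n.factorial * heff t g χ) = n.factorial * (-heff t g χ) := by ring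
      _ ≤ n.factorial * (k0 * sq χ) := mul_le_mul_of_nonneg_left hkh hf.le
      _ = _ := by ring
  have hr2 : nsq r ≤ k0 / δ * p2 := by
    have h1 : nsq r ≤ k / δ := by rw [le_div_iff₀ hδ]; linarith
    calc nsq r ≤ k / δ := h1
      _ ≤ (k0 * p2) / δ := by gcongr
      _ = _ := by field_simp
  have hkl : -k ≤ lam * p2 := by
    rw [hso, hp2']
    calc -(-(n.factorial * heff t g χ)) = n.factorial * heff t g χ := by ring
      _ ≤ n.factorial * (lam * sq χ) := mul_le_mul_of_nonneg_left hχ hf.le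
      _ = _ := by ring
  have hE3 : 0 ≤ k0 ^ 2 / δ := by positivity
  have hlam : -lam ≤ k0 := by
    have h1 : -lam * sq χ ≤ k0 * sq χ := by linarith
    exact le_of_mul_le_mul_right h1 hχ0
  have hlamr : lam * p2 ≤ lam * (p2 + nsq r) + k0 ^ 2 / δ * p2 := by
    have h1 : -lam * nsq r ≤ k0 ^ 2 / δ * p2 := by
      calc -lam * nsq r ≤ k0 * nsq r := mul_le_mul_of_nonneg_right hlam hr20
        _ ≤ k0 * (k0 / δ * p2) := mul_le_mul_of_nonneg_left hr2 hk00
        _ = _ := by ring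
    linarith
  have hhop := (abs_le.1 (hop_le H (-r))).2
  rw [hnr, ← hM] at hhop
  have hhop2 : M * nsq r ≤ M / δ * k0 * p2 := by
    calc M * nsq r ≤ M * (k0 / δ * p2) := mul_le_mul_of_nonneg_left hr2 hM0
      _ = _ := by ring
  have hrest := (abs_le.1 (rest_le H ψ)).2
  have hn2 : nsq ψ = p2 + nsq r := by rw [hn1, hnr]
  have hcross : ip (-r) B = -k := by rw [ip_neg_left]
  refine ⟨ψ, ?_, ?_, ?_⟩
  · intro σ a s
    have h1 := emb_anti χ σ a s
    have h2 := rvec_anti t g χ σ a s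
    rw [← hr] at h2
    rw [hψ]
    simp only [Pi.add_apply, Pi.neg_apply, h1, h2]
    ring
  · rw [hn2]; linarith
  · have hexp : (E0 g + lam + mottErr2 n δ κ τ k0) * nsq ψ
        = E0 g * nsq ψ + lam * nsq ψ + 2 * (M / δ) * k0 * nsq ψ + k0 ^ 2 / δ * nsq ψ
          + n ^ 4 * κ * nsq ψ := by
      unfold mottErr2
      rw [← hM]
      ring
    rw [hexp, hform1, hSr, hcross]
    have hMd : 0 ≤ M / δ * k0 := by positivity
    have h3 : M / δ * k0 * p2 ≤ 2 * (M / δ) * k0 * nsq ψ := by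
      rw [hn2]
      nlinarith [mul_nonneg hMd hp20.le, mul_nonneg hMd hr20]
    have h4 : k0 ^ 2 / δ * p2 ≤ k0 ^ 2 / δ * nsq ψ := by
      rw [hn2]
      nlinarith [mul_nonneg hE3 hr20]
    rw [← hn2] at hlamr
    linarith

end

end Vale.Agent.P370.H600
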