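import Mathlib

/-! **Block M1 (Mott / superexchange), first quantised form.**

`n` electrons on `n` orthonormal orbitals `Fin n`, spin `Bool`.  A state is a real coefficient
tensor `ψ a s` (`a : Fin n → Fin n` the orbital of each electron, `s : Fin n → Bool` its spin),
antisymmetric under simultaneous permutations of the electrons.  The Hamiltonian is given by a
one-body matrix `t` and two-electron integrals `g a c b d = (ac|bd)`. -/

namespace Vale.Agent.P370.H600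

open Finset Function

noncomputable section

/-- Real coefficient tensors of `n` electrons on the orbitals `Fin m` with spin. -/
abbrev MSt (n m : ℕ) : Type := (Fin n → Fin m) → (Fin n → Bool) → ℝ

variable {n m : ℕ}

/-- Antisymmetric under simultaneous exchange of orbital and spin labels. -/
def Anti (ψ : MSt n m) : Prop :=
  ∀ (σ : Equiv.Perm (Fin n)) (a : Fin n → Fin m) (s : Fin n → Bool),
    ψ (a ∘ σ) (s ∘ σ) = ((Equiv.Perm.sign σ : ℤ) : ℝ) * ψ a s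

/-- inner product -/
def ip (ψ φ : MSt n m) : ℝ := ∑ a, ∑ s, ψ a s * φ a s

/-- squared norm -/
def nsq (ψ : MSt n m) : ℝ := ip ψ ψ

/-- one-body operator with matrix `t` -/
def T1 (t : Fin m → Fin m → ℝ) (ψ : MSt n m) : MSt n m := fun a s =>
  ∑ i, ∑ b, t (a i) b * ψ (update a i b) s

/-- two-body operator with integrals `g a c b d = (ac|bd)` -/
def T2 (g : Fin m → Fin m → Fin m → Fin m → ℝ) (ψ : MSt n m) : MSt n m := fun a s =>
  (1 / 2) * ∑ i, ∑ j ∈ univ.erase i, ∑ c, ∑ d,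
    g (a i) c (a j) d * ψ (update (update a i c) j d) s

/-- energy form of the `n`-electron Hamiltonian -/
def hform (t : Fin m → Fin m → ℝ) (g : Fin m → Fin m → Fin m → Fin m → ℝ) (ψ : MSt n m) : ℝ :=
  ip ψ (T1 t ψ) + ip ψ (T2 g ψ)

/-- spin states of one electron per orbital -/
abbrev SSt (n : ℕ) : Type := (Fin n → Bool) → ℝ

/-- squared norm of a spin state -/
def sq (χ : SSt n) : ℝ := ∑ s, χ s ^ 2

/-- `⟨χ, SWAP_ab χ⟩` -/
def swapForm (a b : Fin n) (χ : SSt n) : ℝ := ∑ s, χ s * χ (s ∘ Equiv.swap a b)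

/-- charge matrix -/
def Jm (g : Fin m → Fin m → Fin m → Fin m → ℝ) (a b : Fin m) : ℝ := g a a b b

/-- `Δ_ab = (J_aa + J_bb - 2 J_ab)/2`, the cost of moving one electron from `a` to `b` -/
def Del (g : Fin m → Fin m → Fin m → Fin m → ℝ) (a b : Fin m) : ℝ :=
  (Jm g a a + Jm g b b - 2 * Jm g a b) / 2

/-- The effective antiferromagnetic Heisenberg form
`-∑_{a ≠ b} (t_ab²/Δ_ab) (1 - SWAP_ab)` (sum over ordered pairs). -/
def heff (t : Fin n → Fin n → ℝ) (g : Fin n → Fin n → Fin n → Fin n → ℝ) (χ : SSt n) : ℝ :=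
  -∑ a, ∑ b ∈ univ.erase a, (t a b ^ 2 / Del g a b) * (sq χ - swapForm a b χ)

/-- The classical Mott energy `-(1/2) ∑_{ab} J_ab`. -/
def E0 (g : Fin n → Fin n → Fin n → Fin n → ℝ) : ℝ := -(1 / 2) * ∑ a, ∑ b, Jm g a b

/-- Hypotheses of the Mott block. -/
structure MottHyp (t : Fin n → Fin n → ℝ) (g : Fin n → Fin n → Fin n → Fin n → ℝ)
    (δ κ τ : ℝ) : Prop where
  npos : 0 < n
  dpos : 0 < δ
  kpos : 0 ≤ κ
  tpos : 0 ≤ τ
  tsymm : ∀ a b, t a b = t b a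
  Jsymm : ∀ a b, Jm g a b = Jm g b a
  Jpos : ∀ v : Fin n → ℝ, δ * ∑ a, v a ^ 2 ≤ ∑ a, ∑ b, Jm g a b * v a * v b
  small : ∀ a c b d, ¬(a = c ∧ b = d) → |g a c b d| ≤ κ
  tdiag : ∀ a, |t a a - (Jm g a a / 2 - ∑ b, Jm g a b)| ≤ κ
  toff : ∀ a b, a ≠ b → |t a b| ≤ τ
  small_t : n ^ 2 * τ ≤ δ / 2

/-- The error of the Mott block. -/
def mottErr (n : ℕ) (δ κ τ : ℝ) : ℝ := 3 * (n ^ 2 * τ) ^ 3 / δ ^ 2 + n ^ 4 * κ

/-- **M1, lower bound**. -/
def MottLowerStmt : Prop := ∀ (n : ℕ) (t : Fin n → Fin n → ℝ)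
  (g : Fin n → Fin n → Fin n → Fin n → ℝ) (δ κ τ lam : ℝ), MottHyp t g δ κ τ →
  (∀ χ : SSt n, lam * sq χ ≤ heff t g χ) →
  ∀ ψ : MSt n n, Anti ψ → (E0 g + lam - mottErr n δ κ τ) * nsq ψ ≤ hform t g ψ

/-- **M1, upper bound**. -/
def MottUpperStmt : Prop := ∀ (n : ℕ) (t : Fin n → Fin n → ℝ)
  (g : Fin n → Fin n → Fin n → Fin n → ℝ) (δ κ τ lam : ℝ), MottHyp t g δ κ τ →
  ∀ χ : SSt n, 0 < sq χ → heff t g χ ≤ lam * sq χ →
  ∃ ψ : MSt n n, Anti ψ ∧ 0 < nsq ψ ∧ hform t g ψ ≤ (E0 g + lam + mottErr n δ κ τ) * nsq ψ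

end

end Vale.Agent.P370.H600
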