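import Vale.Agent.P370.H115.Kap
import Vale.Agent.P370.H207.PInputs
import Vale.Agent.P370.H305.Iface

/-! (I3): `kap` is a polynomial-time real, with simple bounds. -/

namespace Vale.Agent.P370.H600

open Vale.Agent.Lib.PolyTime
open Vale.Agent.P370.H855 Vale.Agent.P370.H115
open scoped Nat

variable {α : Type*} [Enc α]

theorem PTR_kap {n : α → ℕ} (hn : PT ∅ n) (hnb : PBd n) (hn2 : ∀ a, 2 ≤ n a) :
    PTR (fun a => H305.kap (n a)) := by
  have h1 : PTR (fun _ : α => (1 : ℝ) / Real.pi) :=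
    (PTR.one.div PTR.pi (PT.const 0) (PBd.const 0) (fun _ => by
      rw [pow_zero, div_one, abs_of_pos Real.pi_pos]
      linarith [Real.pi_gt_three])).congr fun _ => rfl
  have hm : PT ∅ (fun a => n a - 1) := hn.sub (PT.const 1)
  have hmb : PBd (fun a => n a - 1) := hnb.mono fun a => Nat.sub_le _ _
  have hm2 : PT ∅ (fun a => 2 * (n a - 1)) := (PT.const 2).mul hm
  have hm2b : PBd (fun a => 2 * (n a - 1)) := (PBd.const 2).mul hmb
  have hnum : PT ∅ (fun a => ((2 * (n a - 1) + 1) * (2 * (n a - 1))! ^ 2 : ℕ)) :=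
    (hm2.add (PT.const 1)).mul ((PT.factorial hm2 hm2b).pow (PT.const 2) (PBd.const 2))
  have hden : PT ∅ (fun a => (8 * (16 ^ (n a - 1) * (n a * (n a)! ^ 4)) : ℕ)) :=
    (PT.const 8).mul (((PT.const 16).pow hm hmb).mul (hn.mul
      ((PT.factorial hn hnb).pow (PT.const 4) (PBd.const 4))))
  have h2 := PTR.ofFrac (α := α) (PT.natCast hnum) hden
  refine (h1.mul h2).congr fun a => ?_
  have h := (kap_stmt (n a) (hn2 a)).1
  have e : H305.kap (n a) = H98.kap (n a) := rfl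
  rw [e, h]
  have h3 : ((n a - 1 : ℕ) : ℝ) = n a - 1 := by
    have := hn2 a
    rw [Nat.cast_sub (by omega)]; simp
  push_cast
  rw [h3]
  ring

theorem kap_ge {n : ℕ} (hn : 2 ≤ n) : 1 / (n : ℝ) ^ 12 ≤ H305.kap n := by
  have e : H305.kap n = H98.kap n := rfl
  rw [e]
  refine le_trans ?_ (kap_stmt n hn).2.1
  have h2 : (2 : ℝ) ≤ n := by exact_mod_cast hn
  apply one_div_le_one_div_of_le (by positivity)
  have h6 : (64 : ℝ) ≤ (n : ℝ) ^ 6 := by
    calc (64 : ℝ) = 2 ^ 6 := by norm_num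
      _ ≤ _ := by gcongr
  calc 16 * Real.pi * (n : ℝ) ^ 6 ≤ 64 * (n : ℝ) ^ 6 := by
        have := Real.pi_le_four
        gcongr
        linarith
    _ ≤ (n : ℝ) ^ 6 * (n : ℝ) ^ 6 := by gcongr
    _ = _ := by ring

theorem kap_pos {n : ℕ} (hn : 2 ≤ n) : 0 < H305.kap n := by
  refine lt_of_lt_of_le ?_ (kap_ge hn)
  positivity

theorem kap_le_one {n : ℕ} (hn : 2 ≤ n) : H305.kap n ≤ 1 := by
  have e : H305.kap n = H98.kap n := rfl
  rw [e]
  refine (kap_stmt n hn).2.2.trans ?_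
  rw [div_le_one (by positivity)]
  have h2 : (1 : ℝ) ≤ n := by exact_mod_cast (show 1 ≤ n by omega)
  exact one_le_pow₀ h2

end Vale.Agent.P370.H600
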