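import Vale.Agent.P370.H600.MottSO

/-! **M1 (Mott / superexchange)**, both bounds. -/

namespace Vale.Agent.P370.H600

open Finset Function

variable {n m : ℕ}

noncomputable section

theorem Del_ge {t : Fin n → Fin n → ℝ} {g : Fin n → Fin n → Fin n → Fin n → ℝ} {δ κ τ : ℝ}
    (H : MottHyp t g δ κ τ) {a b : Fin n} (hab : a ≠ b) : δ ≤ Del g a b := by
  have h1 : Acl g (update id a b) = Del g a b :=
    Acl_hop H.Jsymm (a := (id : Fin n → Fin n)) bijective_id a b
  rw [← h1]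
  exact Acl_ge H.dpos.le H.Jpos (update_not_bij bijective_id (by simpa using hab))

theorem abs_swapForm_le (χ : SSt n) (a b : Fin n) : |swapForm a b χ| ≤ sq χ := by
  have h : ∑ s, χ (s ∘ Equiv.swap a b) ^ 2 = sq χ := by
    unfold sq
    exact Equiv.sum_comp (spinEquiv (Equiv.swap a b)) (fun s => χ s ^ 2)
  have h2 : |swapForm a b χ| ≤ ∑ s, (χ s ^ 2 / 2 + χ (s ∘ Equiv.swap a b) ^ 2 / 2) := by
    unfold swapForm
    refine (Finset.abs_sum_le_sum_abs _ _).trans (Finset.sum_le_sum fun s _ => ?_)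
    rw [abs_le]
    constructor <;> nlinarith [sq_nonneg (χ s + χ (s ∘ Equiv.swap a b)),
      sq_nonneg (χ s - χ (s ∘ Equiv.swap a b))]
  rw [Finset.sum_add_distrib, ← Finset.sum_div, ← Finset.sum_div, h] at h2
  have h3 : sq χ / 2 + sq χ / 2 = sq χ := by ring
  unfold sq at *
  linarith

theorem sqχ_nonneg (χ : SSt n) : 0 ≤ sq χ := Finset.sum_nonneg fun _ _ => sq_nonneg _

theorem heff_le {t : Fin n → Fin n → ℝ} {g : Fin n → Fin n → Fin n → Fin n → ℝ} {δ κ τ : ℝ}
    (H : MottHyp t g δ κ τ) (χ : SSt n) : heff t g χ ≤ 0 := by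
  unfold heff
  rw [neg_nonpos]
  apply Finset.sum_nonneg; intro a _
  apply Finset.sum_nonneg; intro b hb
  have h1 := Del_ge H (Finset.ne_of_mem_erase hb).symm
  have h2 := H.dpos
  have h3 := (abs_le.1 (abs_swapForm_le χ a b)).2
  apply mul_nonneg
  · have : 0 < Del g a b := lt_of_lt_of_le h2 h1
    positivity
  · linarith

theorem neg_heff_le {t : Fin n → Fin n → ℝ} {g : Fin n → Fin n → Fin n → Fin n → ℝ} {δ κ τ : ℝ}
    (H : MottHyp t g δ κ τ) (χ : SSt n) :
    -heff t g χ ≤ (n ^ 2 * τ) ^ 2 / δ * sq χ := by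
  have hχ := sqχ_nonneg χ
  have hτ := H.tpos
  have hδ := H.dpos
  have h0 : ∀ a, ∀ b ∈ univ.erase a, (t a b ^ 2 / Del g a b) * (sq χ - swapForm a b χ)
      ≤ τ ^ 2 / δ * (2 * sq χ) := by
    intro a b hb
    have hab := (Finset.ne_of_mem_erase hb).symm
    have h1 := Del_ge H hab
    have h3 := (abs_le.1 (abs_swapForm_le χ a b)).1
    have h3' := (abs_le.1 (abs_swapForm_le χ a b)).2
    have h4 : t a b ^ 2 ≤ τ ^ 2 := by
      rw [← sq_abs]
      exact pow_le_pow_left₀ (abs_nonneg _) (H.toff a b hab) 2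
    have h5 : t a b ^ 2 / Del g a b ≤ τ ^ 2 / δ := div_le_div₀ (sq_nonneg _) h4 hδ h1
    apply mul_le_mul h5 (by linarith) (by linarith) (by positivity)
  unfold heff
  rw [neg_neg]
  calc ∑ a, ∑ b ∈ univ.erase a, (t a b ^ 2 / Del g a b) * (sq χ - swapForm a b χ)
      ≤ ∑ a : Fin n, ∑ b ∈ univ.erase a, τ ^ 2 / δ * (2 * sq χ) :=
        Finset.sum_le_sum fun a _ => Finset.sum_le_sum fun b hb => h0 a b hb
    _ = (n * (n - 1) * 2) * (τ ^ 2 / δ * sq χ) := by
        simp only [Finset.sum_const, Finset.card_erase_of_mem (Finset.mem_univ _),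
          Finset.card_univ, Fintype.card_fin, nsmul_eq_mul]
        rw [Nat.cast_sub H.npos]
        push_cast
        ring
    _ ≤ (n ^ 2) ^ 2 * (τ ^ 2 / δ * sq χ) := by
        apply mul_le_mul_of_nonneg_right _ (by positivity)
        have hn : (1 : ℝ) ≤ n := by exact_mod_cast H.npos
        nlinarith [mul_nonneg (sub_nonneg.2 hn) (sub_nonneg.2 hn),
          sq_nonneg ((n : ℝ) ^ 2 - 1), sq_nonneg ((n : ℝ) - 1)]
    _ = _ := by ring

/-- the small rest of the Hamiltonian -/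
theorem rest_le {t : Fin n → Fin n → ℝ} {g : Fin n → Fin n → Fin n → Fin n → ℝ} {δ κ τ : ℝ}
    (H : MottHyp t g δ κ τ) (ψ : MSt n n) :
    |ip ψ (T1 (tres t g) ψ) + ip ψ (T2 (gres g) ψ)| ≤ n ^ 4 * κ * nsq ψ := by
  have hψ := nsq_nonneg ψ
  have hκ := H.kpos
  -- the diagonal part
  have h1 : |ip ψ (T1 (tres t g) ψ)| ≤ n * κ * nsq ψ := by
    have e : ∀ a s, T1 (tres t g) ψ a s
        = (∑ i, (t (a i) (a i) - (Jm g (a i) (a i) / 2 - ∑ c, Jm g (a i) c))) * ψ a s :=
      fun a s => T1_diag (fun a => t a a - (Jm g a a / 2 - ∑ c, Jm g a c)) ψ a s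
    unfold nsq ip
    simp only [e]
    refine (Finset.abs_sum_le_sum_abs _ _).trans ?_
    rw [Finset.mul_sum]
    apply Finset.sum_le_sum; intro a _
    refine (Finset.abs_sum_le_sum_abs _ _).trans ?_
    rw [Finset.mul_sum]
    apply Finset.sum_le_sum; intro s _
    have h2 : |∑ i, (t (a i) (a i) - (Jm g (a i) (a i) / 2 - ∑ c, Jm g (a i) c))| ≤ n * κ := by
      refine (Finset.abs_sum_le_sum_abs _ _).trans ?_
      refine (Finset.sum_le_sum fun i _ => H.tdiag (a i)).trans ?_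
      simp
    rw [show ψ a s * ((∑ i, (t (a i) (a i) - (Jm g (a i) (a i) / 2 - ∑ c, Jm g (a i) c))) * ψ a s)
      = (∑ i, (t (a i) (a i) - (Jm g (a i) (a i) / 2 - ∑ c, Jm g (a i) c))) * (ψ a s * ψ a s)
      by ring, abs_mul, abs_of_nonneg (mul_self_nonneg (ψ a s))]
    exact mul_le_mul_of_nonneg_right h2 (mul_self_nonneg _)
  have h2 : |ip ψ (T2 (gres g) ψ)| ≤ 1 / 2 * (n * (n - 1)) * (n ^ 2 * κ) * nsq ψ := by
    apply T2_bound hκ
    intro a c b d
    unfold gres
    split_ifs with h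
    · simpa using hκ
    · exact H.small a c b d h
  have hn : (1 : ℝ) ≤ n := by exact_mod_cast H.npos
  calc _ ≤ |ip ψ (T1 (tres t g) ψ)| + |ip ψ (T2 (gres g) ψ)| := abs_add_le _ _
    _ ≤ n * κ * nsq ψ + 1 / 2 * (n * (n - 1)) * (n ^ 2 * κ) * nsq ψ := add_le_add h1 h2
    _ = (n + 1 / 2 * (n * (n - 1)) * n ^ 2) * (κ * nsq ψ) := by ring
    _ ≤ n ^ 4 * (κ * nsq ψ) := by
        apply mul_le_mul_of_nonneg_right _ (by positivity)
        nlinarith [pow_le_pow_left₀ zero_le_one hn 3, mul_nonneg (sub_nonneg.2 hn)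
          (by positivity : (0 : ℝ) ≤ (n : ℝ) ^ 3), pow_pos (by linarith : (0 : ℝ) < n) 3,
          mul_nonneg (sub_nonneg.2 (one_le_pow₀ hn : (1 : ℝ) ≤ (n : ℝ) ^ 2))
          (by positivity : (0 : ℝ) ≤ (n : ℝ))]
    _ = _ := by ring

theorem toff_le {t : Fin n → Fin n → ℝ} {g : Fin n → Fin n → Fin n → Fin n → ℝ} {δ κ τ : ℝ}
    (H : MottHyp t g δ κ τ) (a b : Fin n) : |toff t a b| ≤ τ := by
  unfold toff
  split_ifs with h
  · simpa using H.tpos
  · exact H.toff a b h

/-- hopping inside the excited space -/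
theorem hop_le {t : Fin n → Fin n → ℝ} {g : Fin n → Fin n → Fin n → Fin n → ℝ} {δ κ τ : ℝ}
    (H : MottHyp t g δ κ τ) (q : MSt n n) : |ip q (T1 (toff t) q)| ≤ n ^ 2 * τ * nsq q := by
  have := T1_bound H.tpos (toff_le H) q
  calc _ ≤ n * n * τ * nsq q := this
    _ = _ := by ring

theorem ip_emb_hop (χ : SSt n) (t : Fin n → Fin n → ℝ) :
    ip (emb χ) (T1 (toff t) (emb χ)) = 0 := by
  unfold ip
  apply Finset.sum_eq_zero; intro a _
  apply Finset.sum_eq_zero; intro s _
  by_cases ha : Bijective a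
  · rw [hop_bij χ t ha, mul_zero]
  · rw [emb_nbij χ ha, zero_mul]

/-- expansion of the form at `p + q`, `p` a Mott state and `q` excited -/
theorem hform_pq {t : Fin n → Fin n → ℝ} {g : Fin n → Fin n → Fin n → Fin n → ℝ} {δ κ τ : ℝ}
    (H : MottHyp t g δ κ τ) (χ : SSt n) (q : MSt n n)
    (hq : ∀ a s, Bijective a → q a s = 0) :
    nsq (emb χ + q) = nsq (emb χ) + nsq q ∧
    hform t g (emb χ + q) = E0 g * nsq (emb χ + q) + (∑ a, ∑ s, Acl g a * q a s ^ 2)
      + 2 * ip q (T1 (toff t) (emb χ)) + ip q (T1 (toff t) q)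
      + (ip (emb χ + q) (T1 (tres t g) (emb χ + q)) + ip (emb χ + q) (T2 (gres g) (emb χ + q))) := by
  have horth : ip (emb χ) q = 0 := by
    unfold ip
    apply Finset.sum_eq_zero; intro a _
    apply Finset.sum_eq_zero; intro s _
    by_cases ha : Bijective a
    · rw [hq a s ha, mul_zero]
    · rw [emb_nbij χ ha, zero_mul]
  constructor
  · unfold nsq
    rw [ip_add_left, ip_add_right, ip_add_right, horth, ip_comm q, horth]; ring
  · rw [hform_split H.Jsymm]
    congr 1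
    have h1 : ∑ a, ∑ s, Acl g a * (emb χ + q) a s ^ 2 = ∑ a, ∑ s, Acl g a * q a s ^ 2 := by
      apply Finset.sum_congr rfl; intro a _
      apply Finset.sum_congr rfl; intro s _
      by_cases ha : Bijective a
      · rw [Acl_bij g ha]; ring
      · rw [Pi.add_apply, Pi.add_apply, emb_nbij χ ha, zero_add]
    have h2 : ip (emb χ + q) (T1 (toff t) (emb χ + q))
        = 2 * ip q (T1 (toff t) (emb χ)) + ip q (T1 (toff t) q) := by
      rw [T1_add, ip_add_left, ip_add_right, ip_add_right, ip_emb_hop,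
        T1_symm (toff_symm H.tsymm) (emb χ) q, ip_comm _ q]
      ring
    rw [h1, h2]
    ring

theorem rvec_bij (t : Fin n → Fin n → ℝ) (g : Fin n → Fin n → Fin n → Fin n → ℝ) (χ : SSt n)
    {a : Fin n → Fin n} (ha : Bijective a) (s : Fin n → Bool) : rvec t g χ a s = 0 := by
  unfold rvec; rw [if_pos ha]

theorem rvec_nbij (t : Fin n → Fin n → ℝ) (g : Fin n → Fin n → Fin n → Fin n → ℝ) (χ : SSt n)
    {a : Fin n → Fin n} (ha : ¬Bijective a) (s : Fin n → Bool) :
    rvec t g χ a s = T1 (toff t) (emb χ) a s / Acl g a := by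
  unfold rvec; rw [if_neg ha]

/-- `∑ A r² = ⟨r, B⟩` for `r = A⁻¹ B`. -/
theorem sum_rvec {t : Fin n → Fin n → ℝ} {g : Fin n → Fin n → Fin n → Fin n → ℝ} {δ κ τ : ℝ}
    (H : MottHyp t g δ κ τ) (χ : SSt n) :
    ∑ a, ∑ s, Acl g a * rvec t g χ a s ^ 2 = ip (rvec t g χ) (T1 (toff t) (emb χ)) := by
  unfold ip
  apply Finset.sum_congr rfl; intro a _
  apply Finset.sum_congr rfl; intro s _
  by_cases ha : Bijective a
  · rw [rvec_bij t g χ ha]; ring
  · have h := Acl_ge H.dpos.le H.Jpos ha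
    have h' : Acl g a ≠ 0 := by have := H.dpos; linarith
    rw [rvec_nbij t g χ ha]
    field_simp

theorem lam_nonpos {t : Fin n → Fin n → ℝ} {g : Fin n → Fin n → Fin n → Fin n → ℝ} {lam : ℝ}
    (h : ∀ χ : SSt n, lam * sq χ ≤ heff t g χ) : lam ≤ 0 := by
  have h1 := h (fun _ => 1)
  have h2 : heff t g (fun _ => 1) = 0 := by
    unfold heff sq swapForm
    simp
  have h3 : sq (fun _ : Fin n → Bool => (1 : ℝ)) = 2 ^ n := by
    unfold sq
    simp
  rw [h2, h3] at h1
  have : (0 : ℝ) < 2 ^ n := by positivity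
  nlinarith

/-- **M1, lower bound**. -/
theorem mott_lower : MottLowerStmt := by
  intro n t g δ κ τ lam H hlam ψ hψ
  have hδ := H.dpos
  have hτ := H.tpos
  have hκ := H.kpos
  classical
  set χ : SSt n := ψ id with hχ
  set q : MSt n n := fun a s => if Bijective a then 0 else ψ a s with hqdef
  have hq : ∀ a s, Bijective a → q a s = 0 := fun a s h => by simp only [hqdef, if_pos h]
  have hψ2 : ψ = emb χ + q := by
    funext a s
    rw [Pi.add_apply, Pi.add_apply]
    by_cases ha : Bijective a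
    · obtain ⟨σ, rfl⟩ := exists_perm ha
      rw [hq _ _ ha, add_zero]
      exact anti_bij hψ σ s
    · rw [emb_nbij χ ha, zero_add]
      simp only [hqdef, if_neg ha]
  set M : ℝ := n ^ 2 * τ with hM
  have hM0 : 0 ≤ M := by positivity
  set B := T1 (toff t) (emb χ) with hB
  obtain ⟨hn1, hform1⟩ := hform_pq H χ q hq
  rw [← hψ2] at hn1 hform1
  set p2 := nsq (emb χ) with hp2
  set q2 := nsq q with hq2
  have hp20 : 0 ≤ p2 := nsq_nonneg _
  have hq20 : 0 ≤ q2 := nsq_nonneg _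
  set Sq := ∑ a, ∑ s, Acl g a * q a s ^ 2 with hSq
  have hSq2 : δ * q2 ≤ Sq := by
    rw [hSq, hq2, nsq, ip, Finset.mul_sum]
    apply Finset.sum_le_sum; intro a _
    rw [Finset.mul_sum]
    apply Finset.sum_le_sum; intro s _
    by_cases ha : Bijective a
    · rw [hq a s ha]; simp
    · have := Acl_ge H.dpos.le H.Jpos ha
      nlinarith [mul_self_nonneg (q a s)]
  have hθ : M / δ ≤ 1 / 2 := by
    rw [div_le_iff₀ hδ]
    have := H.small_t
    linarith
  set θ := M / δ with hθdef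
  have hθ0 : 0 ≤ θ := by positivity
  have h1θ : 0 < 1 - θ := by linarith
  have hhop : -(θ * Sq) ≤ ip q (T1 (toff t) q) := by
    have h1 := (abs_le.1 (hop_le H q)).1
    have h2 : M * q2 ≤ θ * Sq := by
      calc M * q2 = θ * (δ * q2) := by rw [hθdef]; field_simp
        _ ≤ θ * Sq := mul_le_mul_of_nonneg_left hSq2 hθ0
    linarith
  -- completing the square
  have hsq : -(1 / (1 - θ)) * ip (rvec t g χ) B ≤ (1 - θ) * Sq + 2 * ip q B := by
    rw [← sum_rvec H χ, hSq, ip, Finset.mul_sum, Finset.mul_sum, Finset.mul_sum,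
      ← Finset.sum_add_distrib]
    apply Finset.sum_le_sum; intro a _
    rw [Finset.mul_sum, Finset.mul_sum, Finset.mul_sum, ← Finset.sum_add_distrib]
    apply Finset.sum_le_sum; intro s _
    by_cases ha : Bijective a
    · rw [hq a s ha, Acl_bij g ha]; simp
    · have hA : 0 < Acl g a := lt_of_lt_of_le hδ (Acl_ge H.dpos.le H.Jpos ha)
      have hr : B a s = Acl g a * rvec t g χ a s := by
        rw [rvec_nbij t g χ ha, hB]
        field_simp
      rw [hr]
      have h5 : 0 ≤ Acl g a * ((1 - θ) * q a s + rvec t g χ a s) ^ 2 / (1 - θ) := by positivity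
      have h6 : Acl g a * ((1 - θ) * q a s + rvec t g χ a s) ^ 2 / (1 - θ)
          = (1 - θ) * (Acl g a * q a s ^ 2) + 2 * (q a s * (Acl g a * rvec t g χ a s))
            + (1 / (1 - θ)) * (Acl g a * rvec t g χ a s ^ 2) := by
        field_simp
        ring
      linarith
  have hso := second_order H.tsymm H.Jsymm χ
  rw [← hB] at hso
  have hp2' : p2 = n.factorial * sq χ := nsq_emb χ
  have hf : (0 : ℝ) < n.factorial := by exact_mod_cast n.factorial_pos
  have hk := neg_heff_le H χ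
  rw [← hM] at hk
  have hk2 := hlam χ
  have hlam0 := lam_nonpos hlam
  -- `(1/(1-θ)) n! heff ≥ lam p2 - 2 M³/δ² p2`
  have hmain : lam * p2 - 2 * (M ^ 3 / δ ^ 2) * p2 ≤ -(1 / (1 - θ)) * ip (rvec t g χ) B := by
    rw [hso, hp2']
    have h7 : -(1 / (1 - θ)) * -(n.factorial * heff t g χ)
        = n.factorial * (heff t g χ - (θ / (1 - θ)) * (-heff t g χ)) := by
      field_simp
      ring
    rw [h7]
    have h8 : θ / (1 - θ) ≤ 2 * θ := by
      rw [div_le_iff₀ h1θ]
      nlinarith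
    have h9 : 0 ≤ -heff t g χ := by have := heff_le H χ; linarith
    have h10 : (θ / (1 - θ)) * (-heff t g χ) ≤ 2 * θ * (M ^ 2 / δ * sq χ) :=
      mul_le_mul h8 hk h9 (by positivity)
    have h11 : 2 * θ * (M ^ 2 / δ * sq χ) = 2 * (M ^ 3 / δ ^ 2) * sq χ := by
      rw [hθdef]; field_simp
    calc lam * (n.factorial * sq χ) - 2 * (M ^ 3 / δ ^ 2) * (n.factorial * sq χ)
        = n.factorial * (lam * sq χ - 2 * (M ^ 3 / δ ^ 2) * sq χ) := by ring
      _ ≤ n.factorial * (heff t g χ - (θ / (1 - θ)) * (-heff t g χ)) := by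
          apply mul_le_mul_of_nonneg_left _ hf.le
          linarith
  have hrest := (abs_le.1 (rest_le H ψ)).1
  have hE3 : 0 ≤ M ^ 3 / δ ^ 2 := by positivity
  have hfin1 : 2 * (M ^ 3 / δ ^ 2) * p2 ≤ 3 * (M ^ 3 / δ ^ 2) * nsq ψ := by
    rw [hn1]
    nlinarith [mul_nonneg hE3 hp20, mul_nonneg hE3 hq20]
  have hfin2 : lam * nsq ψ ≤ lam * p2 := by
    rw [hn1]; nlinarith [mul_nonneg (neg_nonneg.2 hlam0) hq20]
  have hexp : (E0 g + lam - mottErr n δ κ τ) * nsq ψ
      = E0 g * nsq ψ + lam * nsq ψ - 3 * (M ^ 3 / δ ^ 2) * nsq ψ - n ^ 4 * κ * nsq ψ := by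
    unfold mottErr
    rw [← hM]
    ring
  rw [hexp, hform1]
  linarith

theorem T1_anti {t : Fin m → Fin m → ℝ} {ψ : MSt n m} (hψ : Anti ψ) : Anti (T1 t ψ) := by
  intro σ a s
  unfold T1
  rw [Finset.mul_sum, ← Equiv.sum_comp σ (fun i => ((Equiv.Perm.sign σ : ℤ) : ℝ) *
    ∑ b, t (a i) b * ψ (update a i b) s)]
  apply Finset.sum_congr rfl; intro i _
  rw [Finset.mul_sum]
  apply Finset.sum_congr rfl; intro b _
  have h : update (a ∘ σ) i b = (update a (σ i) b) ∘ σ := by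
    funext x
    by_cases hx : x = i
    · subst hx; simp
    · rw [update_of_ne hx, comp_apply, comp_apply, update_of_ne (fun h => hx (σ.injective h))]
  rw [h, hψ σ, comp_apply]
  ring

theorem Acl_perm (g : Fin n → Fin n → Fin n → Fin n → ℝ) (σ : Equiv.Perm (Fin n))
    (a : Fin n → Fin n) : Acl g (a ∘ σ) = Acl g a := by
  have h : ∀ b, occ (a ∘ σ) b = occ a b := by
    intro b
    unfold occ
    exact Equiv.sum_comp σ (fun i => if a i = b then (1 : ℝ) else 0)
  unfold Acl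
  simp only [h]

theorem rvec_anti (t : Fin n → Fin n → ℝ) (g : Fin n → Fin n → Fin n → Fin n → ℝ) (χ : SSt n) :
    Anti (rvec t g χ) := by
  intro σ a s
  have hiff : Bijective (a ∘ σ) ↔ Bijective a := by
    constructor
    · intro h
      have h3 : a = (a ∘ σ) ∘ σ.symm := by funext x; simp
      rw [h3]
      exact h.comp σ.symm.bijective
    · intro h
      exact h.comp σ.bijective
  unfold rvec
  by_cases ha : Bijective a
  · rw [if_pos (hiff.2 ha), if_pos ha, mul_zero]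
  · rw [if_neg (fun h => ha (hiff.1 h)), if_neg ha, T1_anti (emb_anti χ), Acl_perm]
    ring

/-- **M1, upper bound**. -/
theorem mott_upper : MottUpperStmt := by
  intro n t g δ κ τ lam H χ hχ0 hχ
  have hδ := H.dpos
  have hτ := H.tpos
  have hκ := H.kpos
  set r := rvec t g χ with hr
  have hq : ∀ a s, Bijective a → (-r) a s = 0 := by
    intro a s ha
    rw [Pi.neg_apply, Pi.neg_apply, hr, rvec_bij t g χ ha, neg_zero]
  obtain ⟨hn1, hform1⟩ := hform_pq H χ (-r) hq
  set M : ℝ := n ^ 2 * τ with hM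
  have hM0 : 0 ≤ M := by positivity
  set ψ := emb χ + (-r) with hψ
  set B := T1 (toff t) (emb χ) with hB
  set k := ip r B with hk
  have hnr : nsq (-r) = nsq r := by
    unfold nsq; rw [ip_neg_left, ip_neg_right, neg_neg]
  have hso : k = -(n.factorial * heff t g χ) := second_order H.tsymm H.Jsymm χ
  have hSr : ∑ a, ∑ s, Acl g a * (-r) a s ^ 2 = k := by
    rw [hk, ← sum_rvec H χ]
    apply Finset.sum_congr rfl; intro a _
    apply Finset.sum_congr rfl; intro s _
    rw [Pi.neg_apply, Pi.neg_apply, neg_sq]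
  have hrk : δ * nsq r ≤ k := by
    rw [hk, ← sum_rvec H χ, nsq, ip, Finset.mul_sum]
    apply Finset.sum_le_sum; intro a _
    rw [Finset.mul_sum]
    apply Finset.sum_le_sum; intro s _
    by_cases ha : Bijective a
    · have : r a s = 0 := by have := hq a s ha; simpa using this
      rw [← hr, this]; simp
    · have := Acl_ge H.dpos.le H.Jpos ha
      rw [← hr]
      nlinarith [mul_self_nonneg (r a s)]
  set p2 := nsq (emb χ) with hp2
  have hp2' : p2 = n.factorial * sq χ := nsq_emb χ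
  have hf : (0 : ℝ) < n.factorial := by exact_mod_cast n.factorial_pos
  have hp20 : 0 < p2 := by rw [hp2']; positivity
  have hr20 : 0 ≤ nsq r := nsq_nonneg _
  have hkh := neg_heff_le H χ
  rw [← hM] at hkh
  have hkp : k ≤ M ^ 2 / δ * p2 := by
    rw [hso, hp2']
    calc -(n.factorial * heff t g χ) = n.factorial * (-heff t g χ) := by ring
      _ ≤ n.factorial * (M ^ 2 / δ * sq χ) := mul_le_mul_of_nonneg_left hkh hf.le
      _ = _ := by ring
  have hr2 : nsq r ≤ M ^ 2 / δ ^ 2 * p2 := by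
    have h1 : nsq r ≤ k / δ := by rw [le_div_iff₀ hδ]; linarith
    calc nsq r ≤ k / δ := h1
      _ ≤ (M ^ 2 / δ * p2) / δ := by gcongr
      _ = _ := by field_simp
  have hkl : -k ≤ lam * p2 := by
    rw [hso, hp2']
    calc -(-(n.factorial * heff t g χ)) = n.factorial * heff t g χ := by ring
      _ ≤ n.factorial * (lam * sq χ) := mul_le_mul_of_nonneg_left hχ hf.le
      _ = _ := by ring
  have hMδ : M ≤ δ / 2 := H.small_t
  have hE3 : 0 ≤ M ^ 3 / δ ^ 2 := by positivity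
  -- `-lam ≤ M²/δ`
  have hlam : -lam ≤ M ^ 2 / δ := by
    have h1 : -lam * sq χ ≤ M ^ 2 / δ * sq χ := by linarith
    exact le_of_mul_le_mul_right h1 hχ0
  have hlamr : lam * p2 ≤ lam * (p2 + nsq r) + 1 / 2 * (M ^ 3 / δ ^ 2) * p2 := by
    have h1 : -lam * nsq r ≤ 1 / 2 * (M ^ 3 / δ ^ 2) * p2 := by
      calc -lam * nsq r ≤ (M ^ 2 / δ) * nsq r := mul_le_mul_of_nonneg_right hlam hr20
        _ ≤ (M ^ 2 / δ) * (M ^ 2 / δ ^ 2 * p2) := mul_le_mul_of_nonneg_left hr2 (by positivity)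
        _ = (M ^ 3 / δ ^ 3) * M * p2 := by ring
        _ ≤ (M ^ 3 / δ ^ 3) * (δ / 2) * p2 := by gcongr
        _ = 1 / 2 * (M ^ 3 / δ ^ 2) * p2 := by field_simp
    linarith
  have hhop := (abs_le.1 (hop_le H (-r))).2
  rw [hnr, ← hM] at hhop
  have hhop2 : M * nsq r ≤ M ^ 3 / δ ^ 2 * p2 := by
    calc M * nsq r ≤ M * (M ^ 2 / δ ^ 2 * p2) := mul_le_mul_of_nonneg_left hr2 hM0
      _ = _ := by ring
  have hrest := (abs_le.1 (rest_le H ψ)).2
  have hn2 : nsq ψ = p2 + nsq r := by rw [hn1, hnr]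
  have hcross : ip (-r) B = -k := by rw [ip_neg_left]
  refine ⟨ψ, ?_, ?_, ?_⟩
  · intro σ a s
    have h1 := emb_anti χ σ a s
    have h2 := rvec_anti t g χ σ a s
    rw [← hr] at h2
    rw [hψ]
    simp only [Pi.add_apply, Pi.neg_apply, h1, h2]
    ring
  · rw [hn2]; linarith
  · have hexp : (E0 g + lam + mottErr n δ κ τ) * nsq ψ
        = E0 g * nsq ψ + lam * nsq ψ + 3 * (M ^ 3 / δ ^ 2) * nsq ψ + n ^ 4 * κ * nsq ψ := by
      unfold mottErr
      rw [← hM]
      ring
    rw [hexp, hform1, hSr, hcross]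
    have h3 : 3 / 2 * (M ^ 3 / δ ^ 2) * p2 ≤ 3 * (M ^ 3 / δ ^ 2) * nsq ψ := by
      rw [hn2]
      nlinarith [mul_nonneg hE3 hp20.le, mul_nonneg hE3 hr20]
    rw [← hn2] at hlamr
    linarith

end

end Vale.Agent.P370.H600
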