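import Vale.Agent.P370.H600.MottOps

/-! M1: the classical (diagonal) energy. -/

namespace Vale.Agent.P370.H600

open Finset Function

variable {n m : ℕ}

noncomputable section

/-- occupation number of the orbital `b` -/
def occ (a : Fin n → Fin m) (b : Fin m) : ℝ := ∑ i, if a i = b then 1 else 0

/-- classical excitation energy -/
def Acl (g : Fin m → Fin m → Fin m → Fin m → ℝ) (a : Fin n → Fin m) : ℝ :=
  (1 / 2) * ∑ b, ∑ c, Jm g b c * (occ a b - 1) * (occ a c - 1)

theorem sum_occ (a : Fin n → Fin m) (f : Fin m → ℝ) : ∑ i, f (a i) = ∑ b, occ a b * f b := by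
  unfold occ
  simp only [Finset.sum_mul, ite_mul, one_mul, zero_mul]
  rw [Finset.sum_comm]
  apply Finset.sum_congr rfl; intro i _
  simp

theorem T1_diag (d : Fin m → ℝ) (ψ : MSt n m) (a : Fin n → Fin m) (s : Fin n → Bool) :
    T1 (fun a b => if a = b then d a else 0) ψ a s = (∑ i, d (a i)) * ψ a s := by
  unfold T1
  rw [Finset.sum_mul]
  apply Finset.sum_congr rfl; intro i _
  simp

theorem T2_diag (J : Fin m → Fin m → ℝ) (ψ : MSt n m) (a : Fin n → Fin m) (s : Fin n → Bool) :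
    T2 (fun a c b d => if a = c ∧ b = d then J a b else 0) ψ a s
      = (1 / 2 * ∑ i, ∑ j ∈ univ.erase i, J (a i) (a j)) * ψ a s := by
  unfold T2
  rw [mul_assoc, Finset.sum_mul]
  congr 1
  apply Finset.sum_congr rfl; intro i _
  rw [Finset.sum_mul]
  apply Finset.sum_congr rfl; intro j hj
  rw [Finset.sum_eq_single (a i), Finset.sum_eq_single (a j)]
  · simp
  · intro d _ hd
    have : ¬(a j = d) := fun h => hd h.symm
    simp [this]
  · simp
  · intro c _ hc
    apply Finset.sum_eq_zero; intro d _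
    have : ¬(a i = c ∧ a j = d) := fun h => hc h.1.symm
    simp only [this, if_false, zero_mul]
  · simp

theorem energy_id {g : Fin m → Fin m → Fin m → Fin m → ℝ}
    (hJ : ∀ a b, Jm g a b = Jm g b a) (a : Fin n → Fin m) :
    (∑ i, (Jm g (a i) (a i) / 2 - ∑ b, Jm g (a i) b))
      + 1 / 2 * ∑ i, ∑ j ∈ univ.erase i, Jm g (a i) (a j)
      = -(1 / 2) * (∑ a, ∑ b, Jm g a b) + Acl g a := by
  have e1 : ∀ i, ∑ j ∈ univ.erase i, Jm g (a i) (a j)
      = ∑ j, Jm g (a i) (a j) - Jm g (a i) (a i) := by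
    intro i
    rw [← Finset.add_sum_erase univ _ (Finset.mem_univ i)]; ring
  have e2 : ∀ i, ∑ j, Jm g (a i) (a j) = ∑ c, occ a c * Jm g (a i) c := fun i =>
    sum_occ a (fun c => Jm g (a i) c)
  have e3 : ∑ i, ∑ c, occ a c * Jm g (a i) c = ∑ b, ∑ c, occ a b * (occ a c * Jm g b c) := by
    rw [sum_occ a (fun b => ∑ c, occ a c * Jm g b c)]
    simp only [Finset.mul_sum]
  have e4 : ∑ i, ∑ b, Jm g (a i) b = ∑ b, ∑ c, occ a b * Jm g b c := by
    rw [sum_occ a (fun b => ∑ c, Jm g b c)]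
    simp only [Finset.mul_sum]
  have e5 : ∑ b, ∑ c, occ a c * Jm g b c = ∑ b, ∑ c, occ a b * Jm g b c := by
    rw [Finset.sum_comm]
    apply Finset.sum_congr rfl; intro b _
    apply Finset.sum_congr rfl; intro c _
    rw [hJ c b]
  have e6 : Acl g a = 1 / 2 * (∑ b, ∑ c, occ a b * (occ a c * Jm g b c))
      - 1 / 2 * (∑ b, ∑ c, occ a b * Jm g b c) - 1 / 2 * (∑ b, ∑ c, occ a c * Jm g b c)
      + 1 / 2 * ∑ b, ∑ c, Jm g b c := by
    unfold Acl
    simp only [Finset.mul_sum, ← Finset.sum_sub_distrib, ← Finset.sum_add_distrib]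
    apply Finset.sum_congr rfl; intro b _
    apply Finset.sum_congr rfl; intro c _
    ring
  simp only [e1, Finset.sum_sub_distrib, e2, e3, e4]
  rw [e6, e5, ← Finset.sum_div]
  ring

theorem occ_bij {a : Fin n → Fin n} (ha : Bijective a) (b : Fin n) : occ a b = 1 := by
  unfold occ
  obtain ⟨i, rfl⟩ := ha.2 b
  rw [Finset.sum_eq_single i]
  · simp
  · intro j _ hj
    rw [if_neg (fun h => hj (ha.1 h))]
  · simp

theorem Acl_bij (g : Fin n → Fin n → Fin n → Fin n → ℝ) {a : Fin n → Fin n}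
    (ha : Bijective a) : Acl g a = 0 := by
  unfold Acl
  simp [occ_bij ha]

theorem Acl_ge {g : Fin n → Fin n → Fin n → Fin n → ℝ} {δ : ℝ} (hδ : 0 ≤ δ)
    (hJ : ∀ v : Fin n → ℝ, δ * ∑ a, v a ^ 2 ≤ ∑ a, ∑ b, Jm g a b * v a * v b)
    {a : Fin n → Fin n} (ha : ¬Bijective a) : δ ≤ Acl g a := by
  have hinj : ¬Injective a := fun h => ha (Finite.injective_iff_bijective.1 h)
  have hsurj : ¬Surjective a := fun h => ha (Finite.surjective_iff_bijective.1 h)
  obtain ⟨i, j, hij, hne⟩ : ∃ i j, a i = a j ∧ i ≠ j := by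
    simpa [Injective, not_forall] using hinj
  obtain ⟨b, hb⟩ : ∃ b, ∀ i, a i ≠ b := by
    simpa [Surjective] using hsurj
  have h1 : occ a b = 0 := by
    unfold occ
    apply Finset.sum_eq_zero; intro k _
    rw [if_neg (hb k)]
  have h2 : 2 ≤ occ a (a i) := by
    unfold occ
    have : ∑ k ∈ ({i, j} : Finset (Fin n)), (if a k = a i then (1 : ℝ) else 0)
        ≤ ∑ k, if a k = a i then (1 : ℝ) else 0 := by
      apply Finset.sum_le_sum_of_subset_of_nonneg (Finset.subset_univ _)
      intro k _ _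
      split_ifs <;> norm_num
    refine le_trans ?_ this
    rw [Finset.sum_pair hne]
    simp [hij]
    norm_num
  have hne' : b ≠ a i := fun h => hb i h.symm
  have h3 : (2 : ℝ) ≤ ∑ c, (occ a c - 1) ^ 2 := by
    have : ∑ c ∈ ({b, a i} : Finset (Fin n)), (occ a c - 1) ^ 2 ≤ ∑ c, (occ a c - 1) ^ 2 :=
      Finset.sum_le_sum_of_subset_of_nonneg (Finset.subset_univ _) (fun k _ _ => sq_nonneg _)
    refine le_trans ?_ this
    rw [Finset.sum_pair hne', h1]
    nlinarith
  have h4 := hJ (fun c => occ a c - 1)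
  unfold Acl
  have h5 : δ * 2 ≤ δ * ∑ c, (occ a c - 1) ^ 2 := mul_le_mul_of_nonneg_left h3 hδ
  linarith

theorem occ_update (a : Fin n → Fin m) (i : Fin n) (y b : Fin m) :
    occ (update a i y) b = occ a b - (if a i = b then 1 else 0) + (if y = b then 1 else 0) := by
  unfold occ
  rw [← Finset.add_sum_erase univ _ (Finset.mem_univ i),
    ← Finset.add_sum_erase univ (fun k => if a k = b then (1 : ℝ) else 0) (Finset.mem_univ i)]
  have : ∑ k ∈ univ.erase i, (if update a i y k = b then (1 : ℝ) else 0)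
      = ∑ k ∈ univ.erase i, if a k = b then (1 : ℝ) else 0 := by
    apply Finset.sum_congr rfl; intro k hk
    rw [update_of_ne (Finset.ne_of_mem_erase hk)]
  rw [this, update_self]
  ring

theorem Acl_hop {g : Fin n → Fin n → Fin n → Fin n → ℝ}
    (hJ : ∀ a b, Jm g a b = Jm g b a) {a : Fin n → Fin n}
    (ha : Bijective a) (i j : Fin n) : Acl g (update a i (a j)) = Del g (a i) (a j) := by
  unfold Acl Del
  have e : ∀ b, occ (update a i (a j)) b - 1
      = (if a j = b then 1 else 0) - (if a i = b then 1 else 0) := by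
    intro b
    rw [occ_update, occ_bij ha]; ring
  simp only [e]
  have e2 : ∑ b, ∑ c, Jm g b c * ((if a j = b then (1 : ℝ) else 0) - (if a i = b then 1 else 0))
        * ((if a j = c then 1 else 0) - (if a i = c then 1 else 0))
      = Jm g (a j) (a j) - Jm g (a j) (a i) - Jm g (a i) (a j) + Jm g (a i) (a i) := by
    simp only [mul_sub, Finset.sum_sub_distrib, mul_ite, mul_one, mul_zero,
      Finset.sum_ite_eq, Finset.mem_univ, if_true]
    ring
  rw [e2, hJ (a j) (a i)]
  ring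

/-! ### the splitting of the Hamiltonian -/

/-- the classical one-body part -/
def tcl (g : Fin n → Fin n → Fin n → Fin n → ℝ) : Fin n → Fin n → ℝ := fun a b =>
  if a = b then Jm g a a / 2 - ∑ c, Jm g a c else 0

/-- the residual diagonal one-body part -/
def tres (t : Fin n → Fin n → ℝ) (g : Fin n → Fin n → Fin n → Fin n → ℝ) : Fin n → Fin n → ℝ :=
  fun a b => if a = b then t a a - (Jm g a a / 2 - ∑ c, Jm g a c) else 0

/-- the hopping part -/
def toff (t : Fin n → Fin n → ℝ) : Fin n → Fin n → ℝ := fun a b => if a = b then 0 else t a b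

/-- the classical two-body part -/
def gcl (g : Fin n → Fin n → Fin n → Fin n → ℝ) : Fin n → Fin n → Fin n → Fin n → ℝ :=
  fun a c b d => if a = c ∧ b = d then Jm g a b else 0

/-- the residual two-body part -/
def gres (g : Fin n → Fin n → Fin n → Fin n → ℝ) : Fin n → Fin n → Fin n → Fin n → ℝ :=
  fun a c b d => if a = c ∧ b = d then 0 else g a c b d

theorem t_split (t : Fin n → Fin n → ℝ) (g : Fin n → Fin n → Fin n → Fin n → ℝ) :
    t = (tcl g + tres t g) + toff t := by
  funext a b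
  simp only [tcl, tres, toff, Pi.add_apply]
  by_cases h : a = b
  · subst h; simp
  · simp [h]

theorem g_split (g : Fin n → Fin n → Fin n → Fin n → ℝ) : g = gcl g + gres g := by
  funext a c b d
  simp only [gcl, gres, Pi.add_apply]
  by_cases h : a = c ∧ b = d
  · obtain ⟨rfl, rfl⟩ := h
    simp [Jm]
  · simp [h]

/-- The form: classical part, hopping, small rest. -/
theorem hform_split {t : Fin n → Fin n → ℝ} {g : Fin n → Fin n → Fin n → Fin n → ℝ}
    (hJ : ∀ a b, Jm g a b = Jm g b a) (ψ : MSt n n) :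
    hform t g ψ = E0 g * nsq ψ + (∑ a, ∑ s, Acl g a * ψ a s ^ 2) + ip ψ (T1 (toff t) ψ)
      + (ip ψ (T1 (tres t g) ψ) + ip ψ (T2 (gres g) ψ)) := by
  have e1 : ip ψ (T1 (tcl g) ψ) + ip ψ (T2 (gcl g) ψ)
      = E0 g * nsq ψ + ∑ a, ∑ s, Acl g a * ψ a s ^ 2 := by
    have h1 : ∀ a s, T1 (tcl g) ψ a s + T2 (gcl g) ψ a s = (E0 g + Acl g a) * ψ a s := by
      intro a s
      have h2 : T1 (tcl g) ψ a s = (∑ i, (Jm g (a i) (a i) / 2 - ∑ c, Jm g (a i) c)) * ψ a s :=
        T1_diag (fun a => Jm g a a / 2 - ∑ c, Jm g a c) ψ a s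
      have h3 : T2 (gcl g) ψ a s = (1 / 2 * ∑ i, ∑ j ∈ univ.erase i, Jm g (a i) (a j)) * ψ a s :=
        T2_diag (Jm g) ψ a s
      rw [h2, h3, ← add_mul, energy_id hJ]
      rfl
    rw [← ip_add_right]
    unfold nsq ip
    rw [Finset.mul_sum, ← Finset.sum_add_distrib]
    apply Finset.sum_congr rfl; intro a _
    rw [Finset.mul_sum, ← Finset.sum_add_distrib]
    apply Finset.sum_congr rfl; intro s _
    rw [Pi.add_apply, Pi.add_apply, h1]
    ring
  have e2 : hform t g ψ = ip ψ (T1 (tcl g) ψ) + ip ψ (T1 (tres t g) ψ) + ip ψ (T1 (toff t) ψ)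
      + (ip ψ (T2 (gcl g) ψ) + ip ψ (T2 (gres g) ψ)) := by
    unfold hform
    conv_lhs => rw [t_split t g, g_split g]
    rw [T1_add_left, T1_add_left, ip_add_right, ip_add_right, T2_add_left, ip_add_right]
    simp only [← g_split]
  rw [e2]
  linarith

end

end Vale.Agent.P370.H600
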