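import Vale.Agent.P370.H600.MottDefs

/-! M1: elementary facts about the first-quantised operators. -/

namespace Vale.Agent.P370.H600

open Finset Function

variable {n m : ℕ}

/-- the involution `(a, b) ↦ (a[i := b], a i)` -/
def updInv (i : Fin n) : Equiv.Perm ((Fin n → Fin m) × Fin m) where
  toFun x := (update x.1 i x.2, x.1 i)
  invFun x := (update x.1 i x.2, x.1 i)
  left_inv x := by simp
  right_inv x := by simp

theorem sum_upd {M : Type*} [AddCommMonoid M] (i : Fin n)
    (G : (Fin n → Fin m) → Fin m → (Fin n → Fin m) → M) :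
    ∑ a, ∑ b, G a b (update a i b) = ∑ a, ∑ b, G (update a i b) (a i) a := by
  rw [← Fintype.sum_prod_type' (f := fun a b => G a b (update a i b)),
    ← Fintype.sum_prod_type' (f := fun a b => G (update a i b) (a i) a)]
  rw [← Equiv.sum_comp (updInv (n := n) (m := m) i)]
  apply Fintype.sum_congr
  intro x
  simp [updInv]

theorem sum_upd_const (i : Fin n) (F : (Fin n → Fin m) → ℝ) :
    ∑ a, ∑ b : Fin m, F (update a i b) = m * ∑ a, F a := by
  rw [sum_upd i (fun _ _ a' => F a')]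
  simp [Finset.mul_sum]

theorem ip_comm (ψ φ : MSt n m) : ip ψ φ = ip φ ψ := by
  unfold ip
  simp only [mul_comm]

theorem ip_add_left (ψ φ χ : MSt n m) : ip (ψ + φ) χ = ip ψ χ + ip φ χ := by
  simp only [ip, Pi.add_apply, add_mul, Finset.sum_add_distrib]

theorem ip_add_right (ψ φ χ : MSt n m) : ip ψ (φ + χ) = ip ψ φ + ip ψ χ := by
  rw [ip_comm, ip_add_left, ip_comm φ, ip_comm χ]

theorem ip_smul_left (c : ℝ) (ψ φ : MSt n m) : ip (c • ψ) φ = c * ip ψ φ := by
  simp only [ip, Pi.smul_apply, smul_eq_mul, mul_assoc, Finset.mul_sum]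

theorem ip_smul_right (c : ℝ) (ψ φ : MSt n m) : ip ψ (c • φ) = c * ip ψ φ := by
  rw [ip_comm, ip_smul_left, ip_comm]

theorem ip_neg_left (ψ φ : MSt n m) : ip (-ψ) φ = - ip ψ φ := by
  simp only [ip, Pi.neg_apply, neg_mul, Finset.sum_neg_distrib]

theorem ip_neg_right (ψ φ : MSt n m) : ip ψ (-φ) = - ip ψ φ := by
  rw [ip_comm, ip_neg_left, ip_comm]

theorem nsq_nonneg (ψ : MSt n m) : 0 ≤ nsq ψ :=
  Finset.sum_nonneg fun _ _ => Finset.sum_nonneg fun _ _ => mul_self_nonneg _

theorem T1_add (t : Fin m → Fin m → ℝ) (ψ φ : MSt n m) : T1 t (ψ + φ) = T1 t ψ + T1 t φ := by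
  funext a s
  simp only [T1, Pi.add_apply, mul_add, Finset.sum_add_distrib]

theorem T1_neg (t : Fin m → Fin m → ℝ) (ψ : MSt n m) : T1 t (-ψ) = -T1 t ψ := by
  funext a s
  simp only [T1, Pi.neg_apply, mul_neg, Finset.sum_neg_distrib]

theorem T1_add_left (t t' : Fin m → Fin m → ℝ) (ψ : MSt n m) :
    T1 (t + t') ψ = T1 t ψ + T1 t' ψ := by
  funext a s
  simp only [T1, Pi.add_apply, add_mul, Finset.sum_add_distrib]

theorem T2_add_left (g g' : Fin m → Fin m → Fin m → Fin m → ℝ) (ψ : MSt n m) :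
    T2 (g + g') ψ = T2 g ψ + T2 g' ψ := by
  funext a s
  simp only [T2, Pi.add_apply, add_mul, Finset.sum_add_distrib, mul_add]

theorem sum3 (F : (Fin n → Fin m) → (Fin n → Bool) → Fin n → ℝ) :
    ∑ a, ∑ s, ∑ i, F a s i = ∑ i, ∑ s, ∑ a, F a s i := by
  rw [Finset.sum_comm' (t' := univ) (s' := fun _ => univ) (by simp)]
  rw [Finset.sum_comm (s := (univ : Finset (Fin n)))]
  apply Finset.sum_congr rfl; intro s _
  exact Finset.sum_comm

/-- `ip ψ (T1 t φ)` with the sums in a convenient order -/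
theorem ip_T1 (t : Fin m → Fin m → ℝ) (ψ φ : MSt n m) :
    ip ψ (T1 t φ) = ∑ i, ∑ s, ∑ a, ∑ b, t (a i) b * (ψ a s * φ (update a i b) s) := by
  rw [← sum3]
  unfold ip T1
  apply Finset.sum_congr rfl; intro a _
  apply Finset.sum_congr rfl; intro s _
  rw [Finset.mul_sum]
  apply Finset.sum_congr rfl; intro i _
  rw [Finset.mul_sum]
  apply Finset.sum_congr rfl; intro b _
  ring

/-- `T1` is symmetric. -/
theorem T1_symm {t : Fin m → Fin m → ℝ} (ht : ∀ a b, t a b = t b a) (ψ φ : MSt n m) :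
    ip ψ (T1 t φ) = ip (T1 t ψ) φ := by
  rw [ip_comm (T1 t ψ), ip_T1, ip_T1]
  apply Finset.sum_congr rfl; intro i _
  apply Finset.sum_congr rfl; intro s _
  refine (sum_upd i (fun a b a' => t (a i) b * (ψ a s * φ a' s))).trans ?_
  apply Finset.sum_congr rfl; intro a _
  apply Finset.sum_congr rfl; intro b _
  rw [update_self, ht b (a i)]; ring

theorem sum_sq_eq (ψ : MSt n m) : ∑ s, ∑ a, ψ a s ^ 2 = nsq ψ := by
  rw [Finset.sum_comm]
  simp only [nsq, ip, pow_two]

/-- entrywise bound for the one-body form -/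
theorem T1_bound {t : Fin m → Fin m → ℝ} {τ : ℝ} (hτ : 0 ≤ τ) (ht : ∀ a b, |t a b| ≤ τ)
    (ψ : MSt n m) : |ip ψ (T1 t ψ)| ≤ n * m * τ * nsq ψ := by
  have key : ∀ (i : Fin n) (s : Fin n → Bool),
      |∑ a, ∑ b, t (a i) b * (ψ a s * ψ (update a i b) s)| ≤ m * τ * ∑ a, ψ a s ^ 2 := by
    intro i s
    calc |∑ a, ∑ b, t (a i) b * (ψ a s * ψ (update a i b) s)|
        ≤ ∑ a, ∑ b, |t (a i) b * (ψ a s * ψ (update a i b) s)| :=
          (Finset.abs_sum_le_sum_abs _ _).trans
            (Finset.sum_le_sum fun a _ => Finset.abs_sum_le_sum_abs _ _)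
      _ ≤ ∑ a, ∑ b, τ * (ψ a s ^ 2 / 2 + ψ (update a i b) s ^ 2 / 2) := by
          apply Finset.sum_le_sum; intro a _
          apply Finset.sum_le_sum; intro b _
          rw [abs_mul]
          apply mul_le_mul (ht _ _) _ (abs_nonneg _) hτ
          rw [abs_le]
          constructor <;> nlinarith [sq_nonneg (ψ a s + ψ (update a i b) s),
            sq_nonneg (ψ a s - ψ (update a i b) s)]
      _ = τ * (∑ a, ∑ b : Fin m, ψ a s ^ 2 / 2 + ∑ a, ∑ b, ψ (update a i b) s ^ 2 / 2) := by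
          simp only [← Finset.mul_sum, Finset.sum_add_distrib]
      _ = m * τ * ∑ a, ψ a s ^ 2 := by
          rw [sum_upd_const i (fun a => ψ a s ^ 2 / 2)]
          simp only [Finset.sum_const, Finset.card_univ, Fintype.card_fin, nsmul_eq_mul,
            ← Finset.mul_sum, ← Finset.sum_div]
          ring
  rw [ip_T1]
  calc |∑ i, ∑ s, ∑ a, ∑ b, t (a i) b * (ψ a s * ψ (update a i b) s)|
      ≤ ∑ i : Fin n, ∑ s, |∑ a, ∑ b, t (a i) b * (ψ a s * ψ (update a i b) s)| :=
        (Finset.abs_sum_le_sum_abs _ _).trans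
          (Finset.sum_le_sum fun i _ => Finset.abs_sum_le_sum_abs _ _)
    _ ≤ ∑ i : Fin n, ∑ s, m * τ * ∑ a, ψ a s ^ 2 :=
        Finset.sum_le_sum fun i _ => Finset.sum_le_sum fun s _ => key i s
    _ = n * m * τ * nsq ψ := by
        simp only [← Finset.mul_sum, sum_sq_eq, Finset.sum_const, Finset.card_univ,
          Fintype.card_fin, nsmul_eq_mul]
        ring

/-- the form of `T2` with the sums in a convenient order -/
theorem ip_T2 (g : Fin m → Fin m → Fin m → Fin m → ℝ) (ψ φ : MSt n m) :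
    ip ψ (T2 g φ) = (1 / 2) * ∑ i, ∑ j ∈ univ.erase i, ∑ s, ∑ a, ∑ c, ∑ d,
      g (a i) c (a j) d * (ψ a s * φ (update (update a i c) j d) s) := by
  have e1 : ip ψ (T2 g φ) = (1 / 2) * ∑ a, ∑ s, ∑ i, ∑ j ∈ univ.erase i, ∑ c, ∑ d,
      g (a i) c (a j) d * (ψ a s * φ (update (update a i c) j d) s) := by
    unfold ip T2
    simp only [Finset.mul_sum]
    apply Finset.sum_congr rfl; intro a _
    apply Finset.sum_congr rfl; intro s _
    apply Finset.sum_congr rfl; intro i _
    apply Finset.sum_congr rfl; intro j _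
    apply Finset.sum_congr rfl; intro c _
    apply Finset.sum_congr rfl; intro d _
    ring
  rw [e1, sum3]
  congr 1
  apply Finset.sum_congr rfl; intro i _
  have e2 : ∀ s, ∑ a, ∑ j ∈ univ.erase i, ∑ c, ∑ d,
      g (a i) c (a j) d * (ψ a s * φ (update (update a i c) j d) s)
      = ∑ j ∈ univ.erase i, ∑ a, ∑ c, ∑ d,
      g (a i) c (a j) d * (ψ a s * φ (update (update a i c) j d) s) := fun s =>
    Finset.sum_comm
  simp only [e2]
  exact Finset.sum_comm

/-- entrywise bound for the two-body form -/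
theorem T2_bound {g : Fin m → Fin m → Fin m → Fin m → ℝ} {κ : ℝ} (hκ : 0 ≤ κ)
    (hg : ∀ a c b d, |g a c b d| ≤ κ) (ψ : MSt n m) :
    |ip ψ (T2 g ψ)| ≤ 1 / 2 * (n * (n - 1)) * (m ^ 2 * κ) * nsq ψ := by
  have key : ∀ (i j : Fin n) (s : Fin n → Bool), i ≠ j →
      |∑ a, ∑ c, ∑ d, g (a i) c (a j) d * (ψ a s * ψ (update (update a i c) j d) s)|
        ≤ m ^ 2 * κ * ∑ a, ψ a s ^ 2 := by
    intro i j s hij
    calc |∑ a, ∑ c, ∑ d, g (a i) c (a j) d * (ψ a s * ψ (update (update a i c) j d) s)|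
        ≤ ∑ a, ∑ c, ∑ d, |g (a i) c (a j) d * (ψ a s * ψ (update (update a i c) j d) s)| :=
          (Finset.abs_sum_le_sum_abs _ _).trans
            (Finset.sum_le_sum fun a _ => (Finset.abs_sum_le_sum_abs _ _).trans
              (Finset.sum_le_sum fun c _ => Finset.abs_sum_le_sum_abs _ _))
      _ ≤ ∑ a, ∑ c, ∑ d, κ * (ψ a s ^ 2 / 2 + ψ (update (update a i c) j d) s ^ 2 / 2) := by
          apply Finset.sum_le_sum; intro a _
          apply Finset.sum_le_sum; intro c _
          apply Finset.sum_le_sum; intro d _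
          rw [abs_mul]
          apply mul_le_mul (hg _ _ _ _) _ (abs_nonneg _) hκ
          rw [abs_le]
          constructor <;> nlinarith [sq_nonneg (ψ a s + ψ (update (update a i c) j d) s),
            sq_nonneg (ψ a s - ψ (update (update a i c) j d) s)]
      _ = κ * (∑ a, ∑ c : Fin m, ∑ d : Fin m, ψ a s ^ 2 / 2
            + ∑ a, ∑ c, ∑ d, ψ (update (update a i c) j d) s ^ 2 / 2) := by
          simp only [← Finset.mul_sum, Finset.sum_add_distrib]
      _ = m ^ 2 * κ * ∑ a, ψ a s ^ 2 := by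
          have h1 : ∑ a, ∑ c, ∑ d, ψ (update (update a i c) j d) s ^ 2 / 2
              = (m : ℝ) * ((m : ℝ) * ∑ a, ψ a s ^ 2 / 2) := by
            rw [sum_upd_const i (fun a => ∑ d, ψ (update a j d) s ^ 2 / 2),
              sum_upd_const j (fun a => ψ a s ^ 2 / 2)]
          rw [h1]
          simp only [Finset.sum_const, Finset.card_univ, Fintype.card_fin, nsmul_eq_mul,
            ← Finset.mul_sum, ← Finset.sum_div]
          ring
  rw [ip_T2, abs_mul, abs_of_pos (by norm_num : (0 : ℝ) < 1 / 2)]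
  calc 1 / 2 * |∑ i, ∑ j ∈ univ.erase i, ∑ s, ∑ a, ∑ c, ∑ d,
      g (a i) c (a j) d * (ψ a s * ψ (update (update a i c) j d) s)|
      ≤ 1 / 2 * ∑ i : Fin n, ∑ j ∈ univ.erase i, ∑ s : Fin n → Bool,
          m ^ 2 * κ * ∑ a, ψ a s ^ 2 := by
        gcongr
        refine (Finset.abs_sum_le_sum_abs _ _).trans (Finset.sum_le_sum fun i _ => ?_)
        refine (Finset.abs_sum_le_sum_abs _ _).trans (Finset.sum_le_sum fun j hj => ?_)
        refine (Finset.abs_sum_le_sum_abs _ _).trans (Finset.sum_le_sum fun s _ => ?_)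
        exact key i j s (Finset.ne_of_mem_erase hj).symm
    _ = 1 / 2 * (n * (n - 1)) * (m ^ 2 * κ) * nsq ψ := by
        rcases Nat.eq_zero_or_pos n with h | h
        · subst h; simp
        · simp only [← Finset.mul_sum, sum_sq_eq, Finset.sum_const, Finset.card_univ,
            Finset.card_erase_of_mem (Finset.mem_univ _), Fintype.card_fin, nsmul_eq_mul]
          rw [Nat.cast_sub h]
          push_cast
          ring

end Vale.Agent.P370.H600
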