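import Vale.Agent.P370.H600.MottCl

/-! M1: Mott states and the second-order term. -/

namespace Vale.Agent.P370.H600

open Finset Function

variable {n m : ℕ}

noncomputable section

open Classical in
/-- the Mott state with spin state `χ` -/
def emb (χ : SSt n) : MSt n n := fun a s =>
  if h : Bijective a then
    ((Equiv.Perm.sign (Equiv.ofBijective a h) : ℤ) : ℝ) * χ (s ∘ (Equiv.ofBijective a h).symm)
  else 0

theorem emb_perm (χ : SSt n) (σ : Equiv.Perm (Fin n)) (s : Fin n → Bool) :
    emb χ σ s = ((Equiv.Perm.sign σ : ℤ) : ℝ) * χ (s ∘ σ.symm) := by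
  have h : Equiv.ofBijective σ σ.bijective = σ := by ext; rfl
  unfold emb
  rw [dif_pos σ.bijective, h]

theorem emb_nbij (χ : SSt n) {a : Fin n → Fin n} (ha : ¬Bijective a) (s : Fin n → Bool) :
    emb χ a s = 0 := dif_neg ha

theorem exists_perm {a : Fin n → Fin n} (ha : Bijective a) :
    ∃ σ : Equiv.Perm (Fin n), a = σ := ⟨Equiv.ofBijective a ha, rfl⟩

theorem emb_anti (χ : SSt n) : Anti (emb χ) := by
  intro σ a s
  by_cases ha : Bijective a
  · obtain ⟨ρ, rfl⟩ := exists_perm ha
    have h1 : (ρ : Fin n → Fin n) ∘ σ = ((ρ * σ : Equiv.Perm (Fin n)) : Fin n → Fin n) := rfl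
    rw [h1, emb_perm, emb_perm]
    have h2 : (s ∘ σ) ∘ (ρ * σ : Equiv.Perm (Fin n)).symm = s ∘ ρ.symm := by
      funext x
      simp [Equiv.Perm.mul_def]
    rw [h2, Equiv.Perm.sign_mul]
    push_cast
    ring
  · have hb : ¬Bijective (a ∘ σ) := by
      intro h
      apply ha
      have h3 : a = (a ∘ σ) ∘ σ.symm := by funext x; simp
      rw [h3]
      exact h.comp σ.symm.bijective
    rw [emb_nbij χ ha, emb_nbij χ hb, mul_zero]

theorem anti_bij {ψ : MSt n n} (hψ : Anti ψ) (σ : Equiv.Perm (Fin n)) (s : Fin n → Bool) :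
    ψ σ s = emb (ψ id) σ s := by
  rw [emb_perm, ← hψ σ id (s ∘ σ.symm)]
  congr 1
  funext x; simp

theorem sum_bij (F : (Fin n → Fin n) → ℝ) (hF : ∀ a, ¬Bijective a → F a = 0) :
    ∑ a, F a = ∑ σ : Equiv.Perm (Fin n), F σ := by
  classical
  have h1 : ∑ σ : Equiv.Perm (Fin n), F σ
      = ∑ a ∈ univ.image (fun σ : Equiv.Perm (Fin n) => (σ : Fin n → Fin n)), F a := by
    rw [Finset.sum_image]
    intro σ _ τ _ h
    exact DFunLike.coe_injective h
  rw [h1]
  symm
  apply Finset.sum_subset (Finset.subset_univ _)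
  intro a _ ha
  apply hF
  intro hb
  apply ha
  obtain ⟨σ, rfl⟩ := exists_perm hb
  exact Finset.mem_image_of_mem _ (Finset.mem_univ σ)

theorem sign_sq (σ : Equiv.Perm (Fin n)) :
    ((Equiv.Perm.sign σ : ℤ) : ℝ) * ((Equiv.Perm.sign σ : ℤ) : ℝ) = 1 := by
  rcases Int.units_eq_one_or (Equiv.Perm.sign σ) with h | h <;> rw [h] <;> norm_num

/-- relabelling spin configurations -/
def spinEquiv (σ : Equiv.Perm (Fin n)) : Equiv.Perm (Fin n → Bool) where
  toFun s := s ∘ σ
  invFun s := s ∘ σ.symm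
  left_inv s := by funext x; simp
  right_inv s := by funext x; simp

theorem sum_emb_sq (χ : SSt n) (σ : Equiv.Perm (Fin n)) :
    ∑ s, emb χ σ s * emb χ σ s = sq χ := by
  unfold sq
  rw [← Equiv.sum_comp (spinEquiv σ)]
  apply Finset.sum_congr rfl; intro s _
  have h : (spinEquiv σ s) ∘ σ.symm = s := by funext x; simp [spinEquiv]
  rw [emb_perm, h]
  have := sign_sq σ
  calc _ = (((Equiv.Perm.sign σ : ℤ) : ℝ) * ((Equiv.Perm.sign σ : ℤ) : ℝ)) * (χ s * χ s) := by ring
    _ = χ s ^ 2 := by rw [this]; ring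

theorem sum_emb_swap (χ : SSt n) (σ : Equiv.Perm (Fin n)) (i j : Fin n) :
    ∑ s, emb χ σ s * emb χ σ (s ∘ Equiv.swap i j) = swapForm (σ i) (σ j) χ := by
  unfold swapForm
  rw [← Equiv.sum_comp (spinEquiv σ)]
  apply Finset.sum_congr rfl; intro s _
  have h : (spinEquiv σ s) ∘ σ.symm = s := by funext x; simp [spinEquiv]
  have h2 : ((spinEquiv σ s) ∘ Equiv.swap i j) ∘ σ.symm = s ∘ Equiv.swap (σ i) (σ j) := by
    funext x
    simp only [spinEquiv, Equiv.coe_fn_mk, comp_apply]
    rw [Equiv.swap_apply_apply]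
    rfl
  rw [emb_perm, emb_perm, h, h2]
  have := sign_sq σ
  calc _ = (((Equiv.Perm.sign σ : ℤ) : ℝ) * ((Equiv.Perm.sign σ : ℤ) : ℝ))
        * (χ s * χ (s ∘ Equiv.swap (σ i) (σ j))) := by ring
    _ = _ := by rw [this]; ring

theorem nsq_emb (χ : SSt n) : nsq (emb χ) = n.factorial * sq χ := by
  unfold nsq ip
  rw [sum_bij (fun a => ∑ s, emb χ a s * emb χ a s)]
  · simp only [sum_emb_sq]
    rw [Finset.sum_const, Finset.card_univ, Fintype.card_perm, Fintype.card_fin, nsmul_eq_mul]
  · intro a ha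
    simp [emb_nbij χ ha]

theorem update_not_bij {a : Fin n → Fin n} (ha : Bijective a) {i : Fin n} {b : Fin n}
    (hb : a i ≠ b) : ¬Bijective (update a i b) := by
  intro h
  obtain ⟨j, rfl⟩ := ha.2 b
  have hij : i ≠ j := fun h => hb (by rw [h])
  have := h.1 (a₁ := i) (a₂ := j) (by rw [update_self, update_of_ne hij.symm])
  exact hij this

theorem hop_bij (χ : SSt n) (t : Fin n → Fin n → ℝ) {a : Fin n → Fin n} (ha : Bijective a)
    (s : Fin n → Bool) : T1 (toff t) (emb χ) a s = 0 := by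
  unfold T1
  apply Finset.sum_eq_zero; intro i _
  apply Finset.sum_eq_zero; intro b _
  by_cases h : a i = b
  · simp [toff, h]
  · rw [emb_nbij χ (update_not_bij ha h), mul_zero]

theorem not_bij_of_eq {a : Fin n → Fin n} {i j : Fin n} (hij : i ≠ j) (h : a i = a j) :
    ¬Bijective a := fun hb => hij (hb.1 h)

/-- the hopping applied to a Mott state, evaluated at a one-hop configuration -/
theorem hop_eval (χ : SSt n) (t : Fin n → Fin n → ℝ) (σ : Equiv.Perm (Fin n)) {i j : Fin n}
    (hij : i ≠ j) (s : Fin n → Bool) :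
    T1 (toff t) (emb χ) (update σ i (σ j)) s
      = t (σ j) (σ i) * (emb χ σ s - emb χ σ (s ∘ Equiv.swap i j)) := by
  set c : Fin n → Fin n := update σ i (σ j) with hc
  have hci : c i = σ j := by rw [hc, update_self]
  have hcj : c j = σ j := by rw [hc, update_of_ne hij.symm]
  have hne : σ j ≠ σ i := fun h => hij (σ.injective h).symm
  have h0 : ∀ k, k ≠ i → k ≠ j → ∑ b, toff t (c k) b * emb χ (update c k b) s = 0 := by
    intro k hki hkj
    apply Finset.sum_eq_zero; intro b _
    rw [emb_nbij χ, mul_zero]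
    apply not_bij_of_eq hij
    rw [update_of_ne hki.symm, update_of_ne hkj.symm, hci, hcj]
  have h1 : ∑ b, toff t (c i) b * emb χ (update c i b) s = t (σ j) (σ i) * emb χ σ s := by
    rw [Finset.sum_eq_single (σ i)]
    · rw [hci, toff, if_neg hne]
      congr 1
      rw [hc, update_idem, update_eq_self]
    · intro b _ hb
      have : update c i b = update σ i b := by rw [hc, update_idem]
      rw [this, emb_nbij χ (update_not_bij σ.bijective hb.symm), mul_zero]
    · simp
  have h2 : ∑ b, toff t (c j) b * emb χ (update c j b) s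
      = - (t (σ j) (σ i) * emb χ σ (s ∘ Equiv.swap i j)) := by
    rw [Finset.sum_eq_single (σ i)]
    · rw [hcj, toff, if_neg hne]
      have h3 : update c j (σ i) = (σ : Fin n → Fin n) ∘ Equiv.swap i j := by
        funext x
        by_cases hxj : x = j
        · subst hxj; simp
        · rw [update_of_ne hxj]
          by_cases hxi : x = i
          · subst hxi; simp [hc]
          · rw [hc, update_of_ne hxi, comp_apply, Equiv.swap_apply_of_ne_of_ne hxi hxj]
      have h4 : s = (s ∘ Equiv.swap i j) ∘ Equiv.swap i j := by funext x; simp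
      rw [h3]
      conv_lhs => rw [h4]
      rw [emb_anti χ (Equiv.swap i j) σ (s ∘ Equiv.swap i j), Equiv.Perm.sign_swap hij]
      push_cast
      ring
    · intro b _ hb
      rw [emb_nbij χ, mul_zero]
      intro hbij
      -- `update c j b` misses `σ i`
      obtain ⟨k, hk⟩ := hbij.2 (σ i)
      by_cases hkj : k = j
      · subst hkj
        rw [update_self] at hk
        exact hb hk
      · rw [update_of_ne hkj] at hk
        by_cases hki : k = i
        · subst hki
          rw [hci] at hk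
          exact hne hk
        · rw [hc, update_of_ne hki] at hk
          exact hki (σ.injective hk)
    · simp
  unfold T1
  rw [← Finset.add_sum_erase univ _ (Finset.mem_univ i),
    ← Finset.add_sum_erase _ _ (Finset.mem_erase.2 ⟨hij.symm, Finset.mem_univ j⟩), h1, h2]
  rw [Finset.sum_eq_zero]
  · ring
  · intro k hk
    rw [Finset.mem_erase, Finset.mem_erase] at hk
    exact h0 k hk.2.1 hk.1

open Classical in
/-- first-order correction `A⁻¹ T' p`. -/
def rvec (t : Fin n → Fin n → ℝ) (g : Fin n → Fin n → Fin n → Fin n → ℝ) (χ : SSt n) : MSt n n :=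
  fun a s => if Bijective a then 0 else T1 (toff t) (emb χ) a s / Acl g a

theorem toff_symm {t : Fin n → Fin n → ℝ} (ht : ∀ a b, t a b = t b a) (a b : Fin n) :
    toff t a b = toff t b a := by
  unfold toff
  by_cases h : a = b
  · simp [h]
  · rw [if_neg h, if_neg (Ne.symm h), ht]

theorem sum_pairs (σ : Equiv.Perm (Fin n)) (F : Fin n → Fin n → ℝ) :
    ∑ i, ∑ j ∈ univ.erase i, F (σ i) (σ j) = ∑ a, ∑ b ∈ univ.erase a, F a b := by
  rw [← Equiv.sum_comp σ (fun a => ∑ b ∈ univ.erase a, F a b)]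
  apply Finset.sum_congr rfl; intro i _
  have h1 : ∑ j ∈ univ.erase i, F (σ i) (σ j) = (∑ j, F (σ i) (σ j)) - F (σ i) (σ i) := by
    rw [← Finset.add_sum_erase univ _ (Finset.mem_univ i)]; ring
  have h2 : ∑ b ∈ univ.erase (σ i), F (σ i) b = (∑ b, F (σ i) b) - F (σ i) (σ i) := by
    rw [← Finset.add_sum_erase univ _ (Finset.mem_univ (σ i))]; ring
  rw [h1, h2, Equiv.sum_comp σ (fun b => F (σ i) b)]

/-- **the second-order term**: `⟨A⁻¹T'p, T'p⟩ = n! ∑_{a≠b} (t_ab²/Δ_ab)(1 - SWAP_ab)`. -/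
theorem second_order {t : Fin n → Fin n → ℝ} {g : Fin n → Fin n → Fin n → Fin n → ℝ}
    (ht : ∀ a b, t a b = t b a) (hJ : ∀ a b, Jm g a b = Jm g b a) (χ : SSt n) :
    ip (rvec t g χ) (T1 (toff t) (emb χ)) = -(n.factorial * heff t g χ) := by
  rw [T1_symm (toff_symm ht), ip_comm]
  unfold ip
  rw [sum_bij (fun a => ∑ s, emb χ a s * T1 (toff t) (rvec t g χ) a s)]
  swap
  · intro a ha; simp [emb_nbij χ ha]
  have key : ∀ σ : Equiv.Perm (Fin n),
      ∑ s, emb χ σ s * T1 (toff t) (rvec t g χ) σ s = -heff t g χ := by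
    intro σ
    have h1 : ∀ s, T1 (toff t) (rvec t g χ) σ s
        = ∑ i, ∑ j ∈ univ.erase i, (t (σ i) (σ j) ^ 2 / Del g (σ i) (σ j))
          * (emb χ σ s - emb χ σ (s ∘ Equiv.swap i j)) := by
      intro s
      unfold T1
      apply Finset.sum_congr rfl; intro i _
      rw [← Equiv.sum_comp σ, ← Finset.add_sum_erase univ _ (Finset.mem_univ i)]
      have h2 : toff t (σ i) (σ i) = 0 := by simp [toff]
      rw [h2, zero_mul, zero_add]
      apply Finset.sum_congr rfl; intro j hj
      have hij : i ≠ j := (Finset.ne_of_mem_erase hj).symm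
      have hne : σ i ≠ σ j := fun h => hij (σ.injective h)
      rw [rvec, if_neg (update_not_bij σ.bijective hne), hop_eval χ t σ hij,
        Acl_hop hJ σ.bijective, toff, if_neg hne, ht (σ j) (σ i)]
      ring
    simp only [h1, Finset.mul_sum]
    rw [Finset.sum_comm]
    have h3 : ∀ i, ∑ s, ∑ j ∈ univ.erase i, emb χ σ s * ((t (σ i) (σ j) ^ 2 / Del g (σ i) (σ j))
          * (emb χ σ s - emb χ σ (s ∘ Equiv.swap i j)))
        = ∑ j ∈ univ.erase i, (t (σ i) (σ j) ^ 2 / Del g (σ i) (σ j))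
          * (sq χ - swapForm (σ i) (σ j) χ) := by
      intro i
      rw [Finset.sum_comm]
      apply Finset.sum_congr rfl; intro j _
      rw [← sum_emb_sq χ σ, ← sum_emb_swap χ σ i j, ← Finset.sum_sub_distrib, Finset.mul_sum]
      apply Finset.sum_congr rfl; intro s _
      ring
    simp only [h3]
    rw [sum_pairs σ (fun a b => (t a b ^ 2 / Del g a b) * (sq χ - swapForm a b χ))]
    unfold heff
    ring
  simp only [key]
  rw [Finset.sum_const, Finset.card_univ, Fintype.card_perm, Fintype.card_fin, nsmul_eq_mul]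
  ring

end

end Vale.Agent.P370.H600
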